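/-
Row 324, module G, part D (Ricci and Riemann tensor of the DIAGONAL metric `adG` at the centre of the adapted chart: statements C2, C3 of `Geo/IfaceC.lean`).
Architect: helper427.  SHARED DEFINITIONS (nothing to prove here).

Chain.  `G x = diagonal (D x)`.
 (1) `Chr, DChr, Riem`: `riemannCoord G c l i j k = dgRiem (D c) (dgP D c) (dgQ D c) l i j k`, an algebraic expression in the 2-jet of `D` at `c`
     (`dgP D c i k = ∂_i D_k (c)`, `dgQ D c m i k = ∂_m ∂_i D_k (c)`).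
 (2) `S, Jet1, Jet2, AdF, AdJet`: `adDiag x k = adF k (x 0) * dgS (adCl k) x ^ 2`; at the centre `∂_i D_k = [i = 0] p_k`, `∂_m ∂_i D_k = [m = i] h_{i k}` ("warped jet": `dgP0 p`, `dgQ0 h`).
 (3) `AlgG, AlgGG, AlgDG, AlgRic`: for a warped jet, `∑_i dgRiem i i j k = [j = k] dgRicD j`  (pure algebra with Kronecker deltas; checked with exact rational arithmetic).
 (4) `SumCl, RicV, Log, RfLog`: evaluation of `dgRicD` for the three classes of indices (`0`, `1..q`, `q+1,q+2`), comparison with `rfA, rfB, rfC`.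
 (5) `Norm, Sec`: `|Rm|^2` is a sum of non-negative terms, one of them is `kPsi^2`.
-/
import Claimed.Agent.R324.Geo.Defs

set_option autoImplicit false

namespace Claimed.Agent.R324

open Set Claims.C0510
open scoped ContDiff

variable {d : ℕ}

/-- Christoffel symbol `Γ^k_ij` of a diagonal metric from its 1-jet: `D k` = value of `D_k`, `P i k = ∂_i D_k`. -/
noncomputable def dgGam (D : Fin d → ℝ) (P : Fin d → Fin d → ℝ) (k i j : Fin d) : ℝ :=
  (1 / 2) * (D k)⁻¹ *
    ((if j = k then P i k else 0) + (if i = k then P j k else 0) - (if i = j then P k i else 0))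

/-- `∂_m Γ^k_ij` from the 2-jet: `Q m i k = ∂_m ∂_i D_k`. -/
noncomputable def dgDGam (D : Fin d → ℝ) (P : Fin d → Fin d → ℝ) (Q : Fin d → Fin d → Fin d → ℝ)
    (m k i j : Fin d) : ℝ :=
  -(P m k * (D k)⁻¹) * dgGam D P k i j + (1 / 2) * (D k)⁻¹ *
    ((if j = k then Q m i k else 0) + (if i = k then Q m j k else 0) - (if i = j then Q m k i else 0))

/-- `R^l_ijk` (convention of `riemannCoord`) from the 2-jet. -/
noncomputable def dgRiem (D : Fin d → ℝ) (P : Fin d → Fin d → ℝ) (Q : Fin d → Fin d → Fin d → ℝ)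
    (l i j k : Fin d) : ℝ :=
  dgDGam D P Q i l j k - dgDGam D P Q j l i k +
    ∑ p : Fin d, (dgGam D P l i p * dgGam D P p j k - dgGam D P l j p * dgGam D P p i k)

/-- first derivatives of a diagonal field: `dgP D x i k = ∂_i D_k (x)`. -/
noncomputable def dgP (D : EuclideanSpace ℝ (Fin d) → Fin d → ℝ) (x : EuclideanSpace ℝ (Fin d))
    (i k : Fin d) : ℝ :=
  pdiff (fun w => D w k) i x

/-- second derivatives: `dgQ D x m i k = ∂_m ∂_i D_k (x)`. -/
noncomputable def dgQ (D : EuclideanSpace ℝ (Fin d) → Fin d → ℝ) (x : EuclideanSpace ℝ (Fin d))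
    (m i k : Fin d) : ℝ :=
  pdiff (fun w => dgP D w i k) m x

/-- warped 1-jet: only `∂_0` is non-zero. -/
def dgP0 [NeZero d] (p : Fin d → ℝ) (i k : Fin d) : ℝ := if i = 0 then p k else 0

/-- warped 2-jet: the Hessians are diagonal, `h i k = ∂_i ∂_i D_k`. -/
def dgQ0 (h : Fin d → Fin d → ℝ) (m i k : Fin d) : ℝ := if m = i then h i k else 0

/-- `λ_k = p_k / (2 D_k)`. -/
noncomputable def dgLam (D p : Fin d → ℝ) (k : Fin d) : ℝ := p k / (2 * D k)

/-- `μ_k = p_k / (2 D_0)`. -/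
noncomputable def dgMu [NeZero d] (D p : Fin d → ℝ) (k : Fin d) : ℝ := p k / (2 * D 0)

/-- the diagonal entry `Ric_jj` for a warped jet. -/
noncomputable def dgRicD [NeZero d] (D p : Fin d → ℝ) (h : Fin d → Fin d → ℝ) (j : Fin d) : ℝ :=
  h j j / D j - ∑ i, h i j / (2 * D i) - ∑ i, h j i / (2 * D i)
    + dgMu D p j * (2 * dgLam D p 0 + 2 * dgLam D p j - ∑ i, dgLam D p i)
    + (if j = 0 then ∑ i, dgLam D p i ^ 2 + 2 * (∑ i, dgLam D p i) * dgLam D p 0
        - 6 * dgLam D p 0 ^ 2 else 0)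

/-- conformal factor of the stereographic chart in the coordinates `j` with `c j`. -/
noncomputable def dgS (c : Fin d → Prop) [DecidablePred c] (x : EuclideanSpace ℝ (Fin d)) : ℝ :=
  1 / (1 + (∑ j : Fin d with c j, x j ^ 2) / 4)

/-- `adCl q k i`: the index `i` is a coordinate of the sphere factor to which `k` belongs (never for `k = 0` or `i = 0`). -/
def adCl (q : ℕ) (k i : Fin (q + 3)) : Prop :=
  (1 ≤ k.val ∧ k.val ≤ q ∧ 1 ≤ i.val ∧ i.val ≤ q) ∨ (q < k.val ∧ q < i.val)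

instance adCl_dec (q : ℕ) (k : Fin (q + 3)) : DecidablePred (adCl q k) := fun i => by
  unfold adCl; infer_instance

/-- a quantity depending only on the class of the index. -/
def adV (q : ℕ) (a b c : ℝ) (k : Fin (q + 3)) : ℝ :=
  if k.val = 0 then a else if k.val ≤ q then b else c

/-- the three radial profiles `e^a, e^β, e^γ`. -/
noncomputable def adF0 (A B : ℝ → ℝ) (r : ℝ) : ℝ := (A r + (1 - r ^ 2) * B r) / (1 - r ^ 2)
noncomputable def adF1 (A : ℝ → ℝ) (r : ℝ) : ℝ := A r * (1 - r ^ 2)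

/-- radial profile of `adDiag · k`. -/
noncomputable def adF (q : ℕ) (A B C : ℝ → ℝ) (k : Fin (q + 3)) : ℝ → ℝ :=
  if k.val = 0 then adF0 A B else if k.val ≤ q then adF1 A else C

/-- interval (open set) of radii on which everything is positive. -/
def adI (A B C : ℝ → ℝ) : Set ℝ :=
  {r | r ∈ Ioo (-1 : ℝ) 1 ∧ 0 < A r ∧ 0 < A r + (1 - r ^ 2) * B r ∧ 0 < C r}

/-- the corresponding open subset of the chart domain. -/
def adOm (q : ℕ) (A B C : ℝ → ℝ) : Set (Ed q) := {x | x 0 ∈ adI A B C}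

/-- warped Hessian data from the values `E`, and radial second derivatives `H` (functions of the index). -/
noncomputable def adHV (q : ℕ) (E H : Fin (q + 3) → ℝ) (i k : Fin (q + 3)) : ℝ :=
  if i = 0 then H k else if adCl q k i then -E k else 0

/-- `Ric_00`, `Ric_jj` (`j` in `S^q`), `Ric_jj` (`j` in `S^2`) at the centre, in terms of the values `E`, first and second radial derivatives `p`, `h` of the three profiles. -/
noncomputable def adRic0 (q E0 E1 E2 p0 p1 p2 h1 h2 : ℝ) : ℝ :=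
  -(q * (h1 / (2 * E1) - (p1 / (2 * E1)) ^ 2 - p0 / (2 * E0) * (p1 / (2 * E1)))
    + 2 * (h2 / (2 * E2) - (p2 / (2 * E2)) ^ 2 - p0 / (2 * E0) * (p2 / (2 * E2))))

noncomputable def adRic1 (q E0 E1 E2 p0 p1 p2 h1 : ℝ) : ℝ :=
  (q - 1) - E1 / E0 * (h1 / (2 * E1) - 2 * (p1 / (2 * E1)) ^ 2 - p0 / (2 * E0) * (p1 / (2 * E1))
    + (q * (p1 / (2 * E1)) + 2 * (p2 / (2 * E2))) * (p1 / (2 * E1)))

noncomputable def adRic2 (q E0 E1 E2 p0 p1 p2 h2 : ℝ) : ℝ :=
  1 - E2 / E0 * (h2 / (2 * E2) - 2 * (p2 / (2 * E2)) ^ 2 - p0 / (2 * E0) * (p2 / (2 * E2))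
    + (q * (p1 / (2 * E1)) + 2 * (p2 / (2 * E2))) * (p2 / (2 * E2)))

end Claimed.Agent.R324
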