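/-
Row 324, module G, part D: calculus rules for `pdiff` (Def_0510).  helper427.
-/
import Claimed.Agent.R324.Geo.D.Defs

set_option autoImplicit false

namespace Claimed.Agent.R324

open Set Claims.C0510
open scoped ContDiff

variable {d : ℕ} {f g : EuclideanSpace ℝ (Fin d) → ℝ} {x : EuclideanSpace ℝ (Fin d)}

theorem dgPd_const (a : ℝ) (i : Fin d) (x : EuclideanSpace ℝ (Fin d)) :
    pdiff (fun _ => a) i x = 0 := by
  simp [pdiff]

theorem dgPd_coord_diff (j : Fin d) (x : EuclideanSpace ℝ (Fin d)) :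
    DifferentiableAt ℝ (fun w : EuclideanSpace ℝ (Fin d) => w j) x :=
  (EuclideanSpace.proj j : EuclideanSpace ℝ (Fin d) →L[ℝ] ℝ).differentiableAt

theorem dgPd_coord (j i : Fin d) (x : EuclideanSpace ℝ (Fin d)) :
    pdiff (fun w => w j) i x = if i = j then 1 else 0 := by
  have h : HasFDerivAt (fun w : EuclideanSpace ℝ (Fin d) => w j)
      (EuclideanSpace.proj j : EuclideanSpace ℝ (Fin d) →L[ℝ] ℝ) x :=
    (EuclideanSpace.proj j : EuclideanSpace ℝ (Fin d) →L[ℝ] ℝ).hasFDerivAt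
  rw [pdiff, h.fderiv]
  simp [eq_comm]

theorem dgPd_add (hf : DifferentiableAt ℝ f x) (hg : DifferentiableAt ℝ g x) (i : Fin d) :
    pdiff (fun w => f w + g w) i x = pdiff f i x + pdiff g i x := by
  simp only [pdiff]
  rw [fderiv_fun_add hf hg]
  rfl

theorem dgPd_sub (hf : DifferentiableAt ℝ f x) (hg : DifferentiableAt ℝ g x) (i : Fin d) :
    pdiff (fun w => f w - g w) i x = pdiff f i x - pdiff g i x := by
  simp only [pdiff]
  rw [fderiv_fun_sub hf hg]
  rfl

theorem dgPd_neg (f : EuclideanSpace ℝ (Fin d) → ℝ) (x : EuclideanSpace ℝ (Fin d)) (i : Fin d) :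
    pdiff (fun w => -f w) i x = -pdiff f i x := by
  simp only [pdiff]
  rw [fderiv_fun_neg]
  rfl

theorem dgPd_mul (hf : DifferentiableAt ℝ f x) (hg : DifferentiableAt ℝ g x) (i : Fin d) :
    pdiff (fun w => f w * g w) i x = pdiff f i x * g x + f x * pdiff g i x := by
  simp only [pdiff]
  rw [fderiv_fun_mul hf hg]
  simp [mul_comm, add_comm]

theorem dgPd_const_mul (a : ℝ) (hf : DifferentiableAt ℝ f x) (i : Fin d) :
    pdiff (fun w => a * f w) i x = a * pdiff f i x := by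
  rw [dgPd_mul (differentiableAt_const a) hf, dgPd_const]
  ring

theorem dgPd_pow (hf : DifferentiableAt ℝ f x) (n : ℕ) (i : Fin d) :
    pdiff (fun w => f w ^ n) i x = n * f x ^ (n - 1) * pdiff f i x := by
  simp only [pdiff]
  rw [fderiv_fun_pow n hf]
  simp

theorem dgPd_inv (hf : DifferentiableAt ℝ f x) (h0 : f x ≠ 0) (i : Fin d) :
    pdiff (fun w => (f w)⁻¹) i x = -(pdiff f i x * ((f x)⁻¹ * (f x)⁻¹)) := by
  have h := ((hasDerivAt_inv h0).comp_hasFDerivAt x hf.hasFDerivAt).fderiv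
  simp only [pdiff]
  have h' : fderiv ℝ (fun w => (f w)⁻¹) x = fderiv ℝ ((fun t : ℝ => t⁻¹) ∘ f) x := rfl
  rw [h', h]
  simp only [smul_apply, smul_eq_mul]
  field_simp

theorem dgPd_comp {F : ℝ → ℝ} (hF : DifferentiableAt ℝ F (f x)) (hf : DifferentiableAt ℝ f x)
    (i : Fin d) : pdiff (fun w => F (f w)) i x = deriv F (f x) * pdiff f i x := by
  have h := (hF.hasDerivAt.comp_hasFDerivAt x hf.hasFDerivAt).fderiv
  simp only [pdiff]
  have h' : fderiv ℝ (fun w => F (f w)) x = fderiv ℝ (F ∘ f) x := rfl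
  rw [h', h]
  simp

/-- `pdiff` of a sum over a finite set. -/
theorem dgPd_sum {ι : Type*} (s : Finset ι) {F : ι → EuclideanSpace ℝ (Fin d) → ℝ}
    (hF : ∀ a ∈ s, DifferentiableAt ℝ (F a) x) (i : Fin d) :
    pdiff (fun w => ∑ a ∈ s, F a w) i x = ∑ a ∈ s, pdiff (F a) i x := by
  simp only [pdiff]
  rw [fderiv_fun_sum hF]
  simp

/-- `pdiff` of an `if` on a condition which does not depend on the point. -/
theorem dgPd_ite (c : Prop) [Decidable c] (f : EuclideanSpace ℝ (Fin d) → ℝ) (i : Fin d)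
    (x : EuclideanSpace ℝ (Fin d)) :
    pdiff (fun w => if c then f w else 0) i x = if c then pdiff f i x else 0 := by
  split_ifs
  · rfl
  · exact dgPd_const 0 i x

end Claimed.Agent.R324
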