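/-
Row 324, module G, part D, leaf S (architect helper427): the conformal factor `dgS c x = 1 / (1 + (∑_{j : c j} x_j^2)/4)`.
PROOFS.  Put `N x = 1 + (∑ j with c j, x j ^ 2) / 4 ≥ 1 > 0` (`Finset.sum_nonneg`, `sq_nonneg`).
 * smooth: `contDiff_const.div (..) (fun x => ne_of_gt ..)`; the coordinates `fun x => x j` are `(EuclideanSpace.proj j).contDiff` (or `contDiff_euclidean`/`fun_prop`); `ContDiff.sum`, `.pow`.
 * value at `single 0 y`: all `j` in the filter are `≠ 0` (as `¬ c 0`), so `(single 0 y) j = 0` (`simp [EuclideanSpace.single_apply]`, `Finset.sum_eq_zero`).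
 * `pdiff`: `dgS c = fun w => (N w)⁻¹` (`one_div`), `dgPd_inv`, `dgPd_add/const`, `dgPd_sum`, `dgPd_pow`, `dgPd_coord` (D/Pd.lean):
   `pdiff N i x = (∑ j with c j, 2 * x j * (if i = j then 1 else 0)) / 4 = if c i then x i / 2 else 0` (`Finset.sum_ite_eq`, `Finset.mem_filter`).
-/
import Claimed.Agent.R324.Geo.D.Pd

set_option autoImplicit false

namespace Claimed.Agent.R324

open Set Claims.C0510
open scoped ContDiff

variable {d : ℕ}

/-- the denominator of `dgS`. -/
noncomputable def dgs_N (c : Fin d → Prop) [DecidablePred c] (x : EuclideanSpace ℝ (Fin d)) : ℝ :=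
  1 + (∑ j : Fin d with c j, x j ^ 2) / 4

theorem dgs_N_pos (c : Fin d → Prop) [DecidablePred c] (x : EuclideanSpace ℝ (Fin d)) :
    0 < dgs_N c x := by
  have h : 0 ≤ ∑ j : Fin d with c j, x j ^ 2 := Finset.sum_nonneg fun j _ => sq_nonneg _
  unfold dgs_N
  linarith

theorem dgs_N_contDiff (c : Fin d → Prop) [DecidablePred c] : ContDiff ℝ ∞ (dgs_N c) := by
  unfold dgs_N
  refine contDiff_const.add (ContDiff.div_const ?_ 4)
  refine ContDiff.sum fun j _ => ?_
  exact ((EuclideanSpace.proj j : EuclideanSpace ℝ (Fin d) →L[ℝ] ℝ).contDiff).pow 2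

theorem dgs_eq (c : Fin d → Prop) [DecidablePred c] : dgS c = fun w => (dgs_N c w)⁻¹ := by
  funext w
  simp only [dgS, dgs_N, one_div]

theorem dgs_N_pdiff (c : Fin d → Prop) [DecidablePred c] (i : Fin d)
    (x : EuclideanSpace ℝ (Fin d)) :
    pdiff (dgs_N c) i x = if c i then x i / 2 else 0 := by
  have hsq : ∀ j : Fin d, DifferentiableAt ℝ (fun w : EuclideanSpace ℝ (Fin d) => w j ^ 2) x :=
    fun j => (dgPd_coord_diff j x).pow 2
  have hsum : DifferentiableAt ℝ
      (fun w : EuclideanSpace ℝ (Fin d) => ∑ j : Fin d with c j, w j ^ 2) x :=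
    DifferentiableAt.fun_sum fun j _ => hsq j
  have h1 : dgs_N c = fun w => (fun _ => (1 : ℝ)) w +
      (fun w : EuclideanSpace ℝ (Fin d) => (1 / 4 : ℝ) * ∑ j : Fin d with c j, w j ^ 2) w := by
    funext w
    simp only [dgs_N]
    ring
  rw [h1, dgPd_add (differentiableAt_const _) (hsum.const_mul _), dgPd_const,
    dgPd_const_mul _ hsum, dgPd_sum _ (fun j _ => hsq j)]
  have h2 : ∀ j : Fin d, pdiff (fun w : EuclideanSpace ℝ (Fin d) => w j ^ 2) i x =
      if i = j then 2 * x i else 0 := by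
    intro j
    rw [dgPd_pow (dgPd_coord_diff j x), dgPd_coord]
    by_cases hij : i = j
    · subst hij
      simp
    · simp [hij]
  simp only [h2]
  rw [Finset.sum_ite_eq]
  by_cases hc : c i
  · simp only [Finset.mem_filter, Finset.mem_univ, true_and, hc, if_true]
    ring
  · simp only [Finset.mem_filter, Finset.mem_univ, true_and, hc, if_false]
    ring

theorem dgS_contDiff (c : Fin d → Prop) [DecidablePred c] : ContDiff ℝ ∞ (dgS c) := by
  rw [dgs_eq]
  exact (dgs_N_contDiff c).inv fun x => (dgs_N_pos c x).ne'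

theorem dgS_pos (c : Fin d → Prop) [DecidablePred c] (x : EuclideanSpace ℝ (Fin d)) :
    0 < dgS c x := by
  rw [dgs_eq]
  exact inv_pos.2 (dgs_N_pos c x)

theorem dgS_single [NeZero d] (c : Fin d → Prop) [DecidablePred c] (hc : ¬ c 0) (y : ℝ) :
    dgS c (EuclideanSpace.single 0 y) = 1 := by
  have h : ∑ j : Fin d with c j, (EuclideanSpace.single (0 : Fin d) y : EuclideanSpace ℝ (Fin d)) j ^ 2
      = 0 := by
    refine Finset.sum_eq_zero fun j hj => ?_
    have hcj : c j := (Finset.mem_filter.1 hj).2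
    have hj0 : j ≠ 0 := fun h0 => hc (h0 ▸ hcj)
    simp [hj0]
  simp only [dgS, h]
  norm_num

theorem dgS_pdiff (c : Fin d → Prop) [DecidablePred c] (i : Fin d)
    (x : EuclideanSpace ℝ (Fin d)) :
    pdiff (dgS c) i x = if c i then -(x i / 2) * dgS c x ^ 2 else 0 := by
  have hd : DifferentiableAt ℝ (dgs_N c) x :=
    ((dgs_N_contDiff c).differentiable (by simp)).differentiableAt
  have hv : dgS c x = (dgs_N c x)⁻¹ := by rw [dgs_eq]
  rw [hv, dgs_eq, dgPd_inv hd (dgs_N_pos c x).ne', dgs_N_pdiff]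
  split_ifs
  · ring
  · ring

end Claimed.Agent.R324
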