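/-
Row 324, module G, part D, leaf Jet1 (architect helper427): first derivatives of `w ↦ F (w 0) * dgS c w ^ 2`.
PROOF.  `dgPd_mul`, `dgPd_comp` (with `f = fun w => w 0`, `dgPd_coord_diff`, `dgPd_coord`), `dgPd_pow`, `dgS_pdiff`;  `dgS c` is differentiable: `(dgS_contDiff c).differentiable (by simp) x`.
 `∂_i = F'(x 0) [i = 0] s^2 + F(x 0) * 2 s * ([c i] (-(x_i/2) s^2))`; cases `i = 0` (then `¬ c i` by `hc`), `i ≠ 0`, `c i` or not; `ring`.
-/
import Claimed.Agent.R324.Geo.D.S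

set_option autoImplicit false

namespace Claimed.Agent.R324

open Set Claims.C0510
open scoped ContDiff

variable {d : ℕ}

theorem dgJet1 [NeZero d] (c : Fin d → Prop) [DecidablePred c] (hc : ¬ c 0) (F : ℝ → ℝ)
    (x : EuclideanSpace ℝ (Fin d)) (hF : DifferentiableAt ℝ F (x 0)) (i : Fin d) :
    pdiff (fun w => F (w 0) * dgS c w ^ 2) i x =
      if i = 0 then deriv F (x 0) * dgS c x ^ 2
      else if c i then -(F (x 0) * x i * dgS c x ^ 3) else 0 := by
  have hS : DifferentiableAt ℝ (dgS c) x := (dgS_contDiff c).differentiable (by simp) x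
  have h0 : DifferentiableAt ℝ (fun w : EuclideanSpace ℝ (Fin d) => w 0) x := dgPd_coord_diff 0 x
  have hF0 : DifferentiableAt ℝ (fun w : EuclideanSpace ℝ (Fin d) => F (w 0)) x :=
    DifferentiableAt.comp (f := fun w : EuclideanSpace ℝ (Fin d) => w 0) x hF h0
  have hS2 : DifferentiableAt ℝ (fun w : EuclideanSpace ℝ (Fin d) => dgS c w ^ 2) x := hS.pow 2
  rw [dgPd_mul hF0 hS2 i, dgPd_comp (f := fun w : EuclideanSpace ℝ (Fin d) => w 0) hF h0 i,
    dgPd_coord, dgPd_pow hS 2 i, dgS_pdiff]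
  by_cases hi : i = 0
  · subst hi
    simp [hc]
  · by_cases hci : c i
    · simp only [hi, hci, if_true, if_false]
      push_cast
      ring
    · simp [hi, hci]

/-- smoothness of the same function. -/
theorem dgJet_contDiffOn [NeZero d] (c : Fin d → Prop) [DecidablePred c] (F : ℝ → ℝ) {I : Set ℝ}
    (hF : ContDiffOn ℝ ∞ F I) :
    ContDiffOn ℝ ∞ (fun w : EuclideanSpace ℝ (Fin d) => F (w 0) * dgS c w ^ 2) {w | w 0 ∈ I} := by
  have h0 : ContDiff ℝ ∞ (fun w : EuclideanSpace ℝ (Fin d) => w 0) :=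
    (EuclideanSpace.proj 0 : EuclideanSpace ℝ (Fin d) →L[ℝ] ℝ).contDiff
  have h1 : ContDiffOn ℝ ∞ (fun w : EuclideanSpace ℝ (Fin d) => F (w 0)) {w | w 0 ∈ I} :=
    hF.comp (g := F) (f := fun w : EuclideanSpace ℝ (Fin d) => w 0) h0.contDiffOn (fun w hw => hw)
  exact h1.mul ((dgS_contDiff c).pow 2).contDiffOn

end Claimed.Agent.R324
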