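/-
Row 324, module G, part D, leaf AdF (architect helper427): `adDiag` in product form; the domain `adOm` is open; `adF` and its derivatives as class functions.
PROOFS.
 * `adDiag_eq`: unfold `adDiag, adF, adF0, adF1, dgS, sZ, sW`; three cases on `k` (`split_ifs`).  In each case the filter `Finset.univ.filter (adCl q k)` equals the filter in `sZ`/`sW`, resp. is empty:
   `Finset.filter_congr`/`Finset.sum_congr` after `simp [adCl]`, `omega`.  (class 0: `adCl q k i` is false, the sum is empty, `1/(1+0/4) = 1`.)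
 * `adI_isOpen`: intersection of `isOpen_Ioo` and three sets `isOpen_lt continuous_const (..)`;  write `adI` as an intersection (`Set.ext`, `Iff.rfl`) or use `IsOpen.and`/`isOpen_setOf...`.
 * `adOm_isOpen`: preimage under the continuous map `x ↦ x 0` (`(EuclideanSpace.proj 0).continuous`, or `by fun_prop`).
 * `adF_eq_adV` etc.: `unfold adF adV; split_ifs <;> rfl` (after `split_ifs` the function `adF q A B C k` is literally `adF0 A B`, `adF1 A` or `C`; if `unfold` under `deriv` is awkward: `have : adF q A B C k = adF0 A B := if_pos h`, `rw [this]`).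
-/
import Claimed.Agent.R324.Geo.D.Jet1
import Claimed.Agent.R324.Geo.Centre

set_option autoImplicit false

namespace Claimed.Agent.R324

open Set Claims.C0510
open scoped ContDiff

theorem adCl_zero (q : ℕ) (k : Fin (q + 3)) : ¬ adCl q k 0 := by
  intro h
  rcases h with ⟨_, _, h, _⟩ | ⟨_, h⟩
  · simp at h
  · simp at h

theorem adf_dgS_zero (q : ℕ) (x : Ed q) (k : Fin (q + 3)) (hk : k.val = 0) :
    dgS (adCl q k) x = 1 := by
  have h : (Finset.univ.filter (adCl q k)) = ∅ := by
    apply Finset.filter_false_of_mem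
    intro i _ hi
    rcases hi with ⟨h, _⟩ | ⟨h, _⟩ <;> omega
  show 1 / (1 + (∑ j ∈ Finset.univ.filter (adCl q k), x j ^ 2) / 4) = 1
  rw [h]
  simp

theorem adf_dgS_one (q : ℕ) (x : Ed q) (k : Fin (q + 3)) (hk : k.val ≠ 0) (hk' : k.val ≤ q) :
    dgS (adCl q k) x = sZ q x := by
  have h : (Finset.univ.filter (adCl q k))
      = Finset.univ.filter (fun j : Fin (q + 3) => 1 ≤ j.val ∧ j.val ≤ q) := by
    apply Finset.filter_congr
    intro i _
    constructor
    · intro hi
      rcases hi with ⟨_, _, h1, h2⟩ | ⟨h, _⟩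
      · exact ⟨h1, h2⟩
      · omega
    · intro hi
      exact Or.inl ⟨by omega, hk', hi.1, hi.2⟩
  show 1 / (1 + (∑ j ∈ Finset.univ.filter (adCl q k), x j ^ 2) / 4) = _
  rw [h]
  rfl

theorem adf_dgS_two (q : ℕ) (x : Ed q) (k : Fin (q + 3)) (hk' : ¬ k.val ≤ q) :
    dgS (adCl q k) x = sW q x := by
  have h : (Finset.univ.filter (adCl q k))
      = Finset.univ.filter (fun j : Fin (q + 3) => q < j.val) := by
    apply Finset.filter_congr
    intro i _
    constructor
    · intro hi
      rcases hi with ⟨_, h, _, _⟩ | ⟨_, h⟩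
      · omega
      · exact h
    · intro hi
      exact Or.inr ⟨by omega, hi⟩
  show 1 / (1 + (∑ j ∈ Finset.univ.filter (adCl q k), x j ^ 2) / 4) = _
  rw [h]
  rfl

theorem adf_adF_zero (q : ℕ) (A B C : ℝ → ℝ) (k : Fin (q + 3)) (hk : k.val = 0) :
    adF q A B C k = adF0 A B := if_pos hk

theorem adf_adF_one (q : ℕ) (A B C : ℝ → ℝ) (k : Fin (q + 3)) (hk : k.val ≠ 0) (hk' : k.val ≤ q) :
    adF q A B C k = adF1 A := (if_neg hk).trans (if_pos hk')

theorem adf_adF_two (q : ℕ) (A B C : ℝ → ℝ) (k : Fin (q + 3)) (hk : k.val ≠ 0) (hk' : ¬ k.val ≤ q) :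
    adF q A B C k = C := (if_neg hk).trans (if_neg hk')

theorem adf_adV_zero (q : ℕ) (a b c : ℝ) (k : Fin (q + 3)) (hk : k.val = 0) :
    adV q a b c k = a := if_pos hk

theorem adf_adV_one (q : ℕ) (a b c : ℝ) (k : Fin (q + 3)) (hk : k.val ≠ 0) (hk' : k.val ≤ q) :
    adV q a b c k = b := (if_neg hk).trans (if_pos hk')

theorem adf_adV_two (q : ℕ) (a b c : ℝ) (k : Fin (q + 3)) (hk : k.val ≠ 0) (hk' : ¬ k.val ≤ q) :
    adV q a b c k = c := (if_neg hk).trans (if_neg hk')

theorem adDiag_eq (q : ℕ) (A B C : ℝ → ℝ) (x : Ed q) (k : Fin (q + 3)) :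
    adDiag q A B C x k = adF q A B C k (x 0) * dgS (adCl q k) x ^ 2 := by
  by_cases hk : k.val = 0
  · rw [adf_adF_zero q A B C k hk, adf_dgS_zero q x k hk]
    have : adDiag q A B C x k = (A (x 0) + (1 - x 0 ^ 2) * B (x 0)) / (1 - x 0 ^ 2) := if_pos hk
    rw [this]
    show _ = (A (x 0) + (1 - x 0 ^ 2) * B (x 0)) / (1 - x 0 ^ 2) * 1 ^ 2
    ring
  · by_cases hk' : k.val ≤ q
    · rw [adf_adF_one q A B C k hk hk', adf_dgS_one q x k hk hk']
      exact (if_neg hk).trans (if_pos hk')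
    · rw [adf_adF_two q A B C k hk hk', adf_dgS_two q x k hk']
      exact (if_neg hk).trans (if_neg hk')

theorem adI_isOpen {A B C : ℝ → ℝ} (hA : Continuous A) (hB : Continuous B) (hC : Continuous C) :
    IsOpen (adI A B C) := by
  have h : adI A B C = Ioo (-1 : ℝ) 1 ∩ ({r | 0 < A r} ∩ ({r | 0 < A r + (1 - r ^ 2) * B r} ∩ {r | 0 < C r})) := by
    ext r
    exact Iff.rfl
  rw [h]
  refine isOpen_Ioo.inter ((isOpen_lt continuous_const hA).inter
    ((isOpen_lt continuous_const (by fun_prop)).inter (isOpen_lt continuous_const hC)))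

theorem adOm_isOpen (q : ℕ) {A B C : ℝ → ℝ} (hA : Continuous A) (hB : Continuous B)
    (hC : Continuous C) : IsOpen (adOm q A B C) := by
  have hc : Continuous fun x : Ed q => x 0 := by fun_prop
  exact (adI_isOpen hA hB hC).preimage hc

/-- `adF` and its derivatives as class functions. -/
theorem adF_eq_adV (q : ℕ) (A B C : ℝ → ℝ) (r : ℝ) (k : Fin (q + 3)) :
    adF q A B C k r = adV q (adF0 A B r) (adF1 A r) (C r) k := by
  by_cases hk : k.val = 0
  · rw [adf_adF_zero q A B C k hk, adf_adV_zero q _ _ _ k hk]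
  · by_cases hk' : k.val ≤ q
    · rw [adf_adF_one q A B C k hk hk', adf_adV_one q _ _ _ k hk hk']
    · rw [adf_adF_two q A B C k hk hk', adf_adV_two q _ _ _ k hk hk']

theorem deriv_adF_eq_adV (q : ℕ) (A B C : ℝ → ℝ) (r : ℝ) (k : Fin (q + 3)) :
    deriv (adF q A B C k) r = adV q (deriv (adF0 A B) r) (deriv (adF1 A) r) (deriv C r) k := by
  by_cases hk : k.val = 0
  · rw [adf_adF_zero q A B C k hk, adf_adV_zero q _ _ _ k hk]
  · by_cases hk' : k.val ≤ q
    · rw [adf_adF_one q A B C k hk hk', adf_adV_one q _ _ _ k hk hk']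
    · rw [adf_adF_two q A B C k hk hk', adf_adV_two q _ _ _ k hk hk']

theorem deriv2_adF_eq_adV (q : ℕ) (A B C : ℝ → ℝ) (r : ℝ) (k : Fin (q + 3)) :
    deriv (deriv (adF q A B C k)) r =
      adV q (deriv (deriv (adF0 A B)) r) (deriv (deriv (adF1 A)) r) (deriv (deriv C) r) k := by
  by_cases hk : k.val = 0
  · rw [adf_adF_zero q A B C k hk, adf_adV_zero q _ _ _ k hk]
  · by_cases hk' : k.val ≤ q
    · rw [adf_adF_one q A B C k hk hk', adf_adV_one q _ _ _ k hk hk']
    · rw [adf_adF_two q A B C k hk hk', adf_adV_two q _ _ _ k hk hk']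

end Claimed.Agent.R324
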