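/-
Row 324, module G, part D, leaf AdReg (architect helper427): smoothness and positivity of the radial profiles on `adI A B C`.
PROOFS.  `r ∈ adI A B C` unfolds to `r ∈ Ioo (-1) 1 ∧ 0 < A r ∧ 0 < A r + (1 - r^2) * B r ∧ 0 < C r`;  `0 < 1 - r^2` by `nlinarith [hr.1.1, hr.1.2]`.
 * `adF0`: `ContDiffOn.div` (numerator: `hA.contDiffOn.add ((contDiffOn_const.sub (contDiffOn_id.pow 2)).mul hB.contDiffOn)`, or `ContDiff` by `fun_prop`-like combinators then `.contDiffOn`), denominator `≠ 0`.  positivity: `div_pos`.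
 * `adF1`: product.  * `adF`: `unfold adF; split_ifs`.
-/
import Claimed.Agent.R324.Geo.D.Defs

set_option autoImplicit false

namespace Claimed.Agent.R324

open Set Claims.C0510
open scoped ContDiff

variable {A B C : ℝ → ℝ}

theorem adreg_one_sub_sq_pos {r : ℝ} (hr : r ∈ adI A B C) : 0 < 1 - r ^ 2 := by
  nlinarith [hr.1.1, hr.1.2]

theorem adF0_contDiffOn (hA : ContDiff ℝ ∞ A) (hB : ContDiff ℝ ∞ B) :
    ContDiffOn ℝ ∞ (adF0 A B) (adI A B C) := by
  unfold adF0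
  have h1 : ContDiff ℝ ∞ (fun r : ℝ => 1 - r ^ 2) := contDiff_const.sub (contDiff_id.pow 2)
  exact ((hA.add (h1.mul hB)).contDiffOn).div h1.contDiffOn
    (fun r hr => (adreg_one_sub_sq_pos hr).ne')

theorem adF1_contDiffOn (hA : ContDiff ℝ ∞ A) : ContDiffOn ℝ ∞ (adF1 A) (adI A B C) := by
  unfold adF1
  have h1 : ContDiff ℝ ∞ (fun r : ℝ => 1 - r ^ 2) := contDiff_const.sub (contDiff_id.pow 2)
  exact (hA.mul h1).contDiffOn

theorem adF0_pos {r : ℝ} (hr : r ∈ adI A B C) : 0 < adF0 A B r :=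
  div_pos hr.2.2.1 (adreg_one_sub_sq_pos hr)

theorem adF1_pos {r : ℝ} (hr : r ∈ adI A B C) : 0 < adF1 A r :=
  mul_pos hr.2.1 (adreg_one_sub_sq_pos hr)

theorem adF_contDiffOn (q : ℕ) (hA : ContDiff ℝ ∞ A) (hB : ContDiff ℝ ∞ B)
    (hC : ContDiff ℝ ∞ C) (k : Fin (q + 3)) : ContDiffOn ℝ ∞ (adF q A B C k) (adI A B C) := by
  unfold adF
  split_ifs
  · exact adF0_contDiffOn hA hB
  · exact adF1_contDiffOn hA
  · exact hC.contDiffOn

theorem adF_pos (q : ℕ) {r : ℝ} (hr : r ∈ adI A B C) (k : Fin (q + 3)) :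
    0 < adF q A B C k r := by
  unfold adF
  split_ifs
  · exact adF0_pos hr
  · exact adF1_pos hr
  · exact hr.2.2.2

end Claimed.Agent.R324
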