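/-
Row 324, module G, part D, leaf Jet2 (architect helper427): second derivatives of `w ↦ F (w 0) * dgS c w ^ 2` at the centre `single 0 y`.
PROOF.  Let `e = EuclideanSpace.single 0 y`; `e 0 = y`, `e i = 0` for `i ≠ 0`, `dgS c e = 1` (`dgS_single`).
 The set `{x | x 0 ∈ I}` is an open neighbourhood of `e` (preimage of `I` under the continuous coordinate), and on it `dgJet1` gives the inner `pdiff`
 (`F` differentiable at `x 0`: `(hF.contDiffAt (hI.mem_nhds h)).differentiableAt (by simp)`).  So by `pdiff_congr` (Geo/Loc) replace the inner function by the formula of `dgJet1`.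
 * `i = 0`: the function is `w ↦ (deriv F) (w 0) * dgS c w ^ 2`: apply `dgJet1` AGAIN with `deriv F` (differentiable at `y`: `hF.deriv_of_isOpen hI` / `ContDiffOn.deriv_of_isOpen`, `m + 1 ≤ ∞`);
   result `if m = 0 then deriv (deriv F) y * 1 else if c m then -(.. * e m * ..) = 0 else 0`.
 * `i ≠ 0`, `c i`: the function is `w ↦ -(F (w 0) * w i * dgS c w ^ 3)`; write it as `w ↦ w i * K w`, `K w = -(F (w 0) * dgS c w ^ 3)` differentiable at `e`;
   `dgPd_mul`, `dgPd_coord`: `= [m = i] * K e + e i * .. = [m = i] * (-F y)`.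
 * otherwise the function is `0` (`dgPd_const`).
-/
import Claimed.Agent.R324.Geo.D.Jet1
import Claimed.Agent.R324.Geo.Loc

set_option autoImplicit false

namespace Claimed.Agent.R324

open Set Claims.C0510
open scoped ContDiff

variable {d : ℕ}

theorem dgJet2 [NeZero d] (c : Fin d → Prop) [DecidablePred c] (hc : ¬ c 0) (F : ℝ → ℝ) {I : Set ℝ}
    (hI : IsOpen I) (hF : ContDiffOn ℝ ∞ F I) {y : ℝ} (hy : y ∈ I) (m i : Fin d) :
    pdiff (fun x => pdiff (fun w => F (w 0) * dgS c w ^ 2) i x) m (EuclideanSpace.single 0 y) =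
      if m = i then (if i = 0 then deriv (deriv F) y else if c i then -F y else 0) else 0 := by
  set e : EuclideanSpace ℝ (Fin d) := EuclideanSpace.single 0 y with he
  have he0 : e 0 = y := by simp [he]
  have hei : ∀ j : Fin d, j ≠ 0 → e j = 0 := by
    intro j hj
    simp [he, hj]
  have hS : dgS c e = 1 := dgS_single c hc y
  have hopen : IsOpen {x : EuclideanSpace ℝ (Fin d) | x 0 ∈ I} :=
    hI.preimage (EuclideanSpace.proj (0 : Fin d) : EuclideanSpace ℝ (Fin d) →L[ℝ] ℝ).continuous
  have hmem : e ∈ {x : EuclideanSpace ℝ (Fin d) | x 0 ∈ I} := by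
    show e 0 ∈ I
    rw [he0]
    exact hy
  have hev : (fun x => pdiff (fun w => F (w 0) * dgS c w ^ 2) i x) =ᶠ[nhds e]
      (fun x => if i = 0 then deriv F (x 0) * dgS c x ^ 2
        else if c i then -(F (x 0) * x i * dgS c x ^ 3) else 0) :=
    Filter.eventuallyEq_of_mem (hopen.mem_nhds hmem) (fun x hx =>
      dgJet1 c hc F x ((hF.contDiffAt (hI.mem_nhds hx)).differentiableAt (by simp)) i)
  rw [pdiff_congr hev m]
  by_cases hi : i = 0
  · simp only [if_pos hi]
    have hdF : DifferentiableAt ℝ (deriv F) (e 0) := by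
      rw [he0]
      have h1 : ContDiffOn ℝ ∞ (deriv F) I := hF.deriv_of_isOpen hI (by simp)
      exact (h1.contDiffAt (hI.mem_nhds hy)).differentiableAt (by simp)
    rw [dgJet1 c hc (deriv F) e hdF m, he0, hS]
    by_cases hm : m = 0
    · simp [hm, hi]
    · have hmi : ¬ m = i := by rw [hi]; exact hm
      rw [if_neg hm, hei m hm, if_neg hmi]
      split_ifs <;> simp
  · simp only [if_neg hi]
    by_cases hci : c i
    · simp only [if_pos hci]
      have hF0 : DifferentiableAt ℝ F (e 0) := by
        rw [he0]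
        exact (hF.contDiffAt (hI.mem_nhds hy)).differentiableAt (by simp)
      have hFd : DifferentiableAt ℝ (fun w : EuclideanSpace ℝ (Fin d) => F (w 0)) e :=
        DifferentiableAt.comp (f := fun w : EuclideanSpace ℝ (Fin d) => w 0) e hF0
          (dgPd_coord_diff 0 e)
      have hSd : DifferentiableAt ℝ (dgS c) e := (dgS_contDiff c).differentiable (by simp) e
      have hK : DifferentiableAt ℝ
          (fun w : EuclideanSpace ℝ (Fin d) => -(F (w 0) * dgS c w ^ 3)) e :=
        (hFd.mul (hSd.pow 3)).neg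
      have e1 : (fun x : EuclideanSpace ℝ (Fin d) => -(F (x 0) * x i * dgS c x ^ 3)) =
          fun x => x i * (-(F (x 0) * dgS c x ^ 3)) := by
        funext x
        ring
      rw [e1, dgPd_mul (dgPd_coord_diff i e) hK, dgPd_coord, hei i hi, he0, hS]
      split_ifs <;> simp
    · simp only [if_neg hci]
      rw [dgPd_const]
      simp

end Claimed.Agent.R324
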