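/-
Row 324, module G, part D, leaf Chr (architect helper427): Christoffel symbols of a diagonal matrix field.
PROOF.  `unfold christoffel dgGam dgP`.  Inverse: `Matrix.inv_diagonal`, or directly `Matrix.inv_eq_right_inv` with `Matrix.diagonal_mul_diagonal`
 (`(diagonal (D x))⁻¹ = diagonal (fun k => (D x k)⁻¹)`, uses `hx`).  `Matrix.diagonal_apply : diagonal v i j = if i = j then v i else 0`.
 The sum over `l` collapses to `l = k` (`Finset.sum_eq_single k` or `simp [Finset.sum_ite_eq]`).
 The functions `fun w => diagonal (D w) j k`: by cases `j = k` (`subst`; `Matrix.diagonal_apply_eq`) or `j ≠ k` (`Matrix.diagonal_apply_ne`, then `dgPd_const`).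
 Helper suggested: `pdiff (fun w => Matrix.diagonal (D w) a b) i x = if a = b then pdiff (fun w => D w a) i x else 0`.
-/
import Claimed.Agent.R324.Geo.D.Pd

set_option autoImplicit false

namespace Claimed.Agent.R324

open Set Claims.C0510
open scoped ContDiff

variable {d : ℕ}

theorem chr_pdiff_diag (D : EuclideanSpace ℝ (Fin d) → Fin d → ℝ) (x : EuclideanSpace ℝ (Fin d))
    (a b i : Fin d) :
    pdiff (fun w => Matrix.diagonal (D w) a b) i x =
      if a = b then pdiff (fun w => D w a) i x else 0 := by
  by_cases h : a = b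
  · subst h
    simp only [Matrix.diagonal_apply_eq, if_true]
  · simp only [Matrix.diagonal_apply_ne _ h, if_neg h]
    exact dgPd_const 0 i x

theorem chr_inv_diag (v : Fin d → ℝ) (hv : ∀ k, v k ≠ 0) :
    (Matrix.diagonal v)⁻¹ = Matrix.diagonal (fun k => (v k)⁻¹) := by
  refine Matrix.inv_eq_right_inv ?_
  rw [Matrix.diagonal_mul_diagonal, ← Matrix.diagonal_one]
  congr 1
  funext k
  exact mul_inv_cancel₀ (hv k)

theorem dg_christoffel (D : EuclideanSpace ℝ (Fin d) → Fin d → ℝ) (x : EuclideanSpace ℝ (Fin d))
    (hx : ∀ k, D x k ≠ 0) (k i j : Fin d) :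
    christoffel (fun w => Matrix.diagonal (D w)) x k i j = dgGam (D x) (dgP D x) k i j := by
  unfold christoffel dgGam dgP
  rw [chr_inv_diag (D x) hx, Finset.sum_eq_single k]
  · rw [Matrix.diagonal_apply_eq, chr_pdiff_diag, chr_pdiff_diag, chr_pdiff_diag, mul_assoc]
    congr 2
    congr 1
    · congr 1
      · by_cases h : j = k
        · subst h; rfl
        · rw [if_neg h, if_neg h]
      · by_cases h : i = k
        · subst h; rfl
        · rw [if_neg h, if_neg h]
  · intro l _ hl
    rw [Matrix.diagonal_apply_ne _ (Ne.symm hl), zero_mul]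
  · intro h
    exact absurd (Finset.mem_univ k) h

end Claimed.Agent.R324
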