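/-
Row 324, module G, part D, leaf DChr (architect helper427): derivative of the Christoffel symbols of a diagonal matrix field.
PROOF.  On the open set `Ω` the function `w ↦ christoffel (..) w k i j` equals `w ↦ dgGam (D w) (dgP D w) k i j` (`dg_christoffel`), so
 `pdiff_congr` (Geo/Loc; germ: `Filter.eventuallyEq_of_mem (hΩ.mem_nhds hc) ..`) reduces to `pdiff` of
 `w ↦ (1/2) * (D w k)⁻¹ * ((if j = k then dgP D w i k else 0) + (if i = k then dgP D w j k else 0) - (if i = j then dgP D w k i else 0))`.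
 Rules: `dgPd_mul, dgPd_const_mul, dgPd_inv, dgPd_add, dgPd_sub, dgPd_ite` (D/Pd.lean).
 Differentiability at `c`: `D · k` : `((hD k).contDiffAt (hΩ.mem_nhds hc)).differentiableAt (by simp)`;
 `dgP D · i k = pdiff (fun w => D w k) i` is `ContDiffOn ℝ ∞` on `Ω` by `pdiff_contDiffOn hΩ (hD k) i` (Geo/RegA);  the `if`s: `split_ifs`, constants.
 Then `unfold dgDGam dgGam dgQ`, `ring`.
-/
import Claimed.Agent.R324.Geo.D.Chr
import Claimed.Agent.R324.Geo.Loc
import Claimed.Agent.R324.Geo.RegA

set_option autoImplicit false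

namespace Claimed.Agent.R324

open Set Claims.C0510
open scoped ContDiff

variable {d : ℕ}

theorem dg_pdiff_christoffel (D : EuclideanSpace ℝ (Fin d) → Fin d → ℝ)
    {Ω : Set (EuclideanSpace ℝ (Fin d))} (hΩ : IsOpen Ω)
    (hD : ∀ k, ContDiffOn ℝ ∞ (fun w => D w k) Ω) (hne : ∀ x ∈ Ω, ∀ k, D x k ≠ 0)
    {c : EuclideanSpace ℝ (Fin d)} (hc : c ∈ Ω) (m k i j : Fin d) :
    pdiff (fun w => christoffel (fun w => Matrix.diagonal (D w)) w k i j) m c =
      dgDGam (D c) (dgP D c) (dgQ D c) m k i j := by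
  have hgerm : (fun w => christoffel (fun w => Matrix.diagonal (D w)) w k i j) =ᶠ[nhds c]
      fun w => dgGam (D w) (dgP D w) k i j :=
    Filter.eventuallyEq_of_mem (hΩ.mem_nhds hc) (fun x hx => dg_christoffel D x (hne x hx) k i j)
  rw [pdiff_congr hgerm m]
  have hDk : DifferentiableAt ℝ (fun w => D w k) c :=
    ((hD k).contDiffAt (hΩ.mem_nhds hc)).differentiableAt (by simp)
  have hP : ∀ a b, DifferentiableAt ℝ (fun w => dgP D w a b) c := fun a b =>
    ((pdiff_contDiffOn hΩ (hD b) a).contDiffAt (hΩ.mem_nhds hc)).differentiableAt (by simp)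
  have hite : ∀ (p : Prop) [Decidable p] (a b : Fin d),
      DifferentiableAt ℝ (fun w => if p then dgP D w a b else 0) c := by
    intro p _ a b
    split_ifs
    · exact hP a b
    · exact differentiableAt_const 0
  have hinv : DifferentiableAt ℝ (fun w => (D w k)⁻¹) c := hDk.inv (hne c hc k)
  have e : pdiff (fun w => D w k) m c = dgP D c m k := rfl
  have hA : DifferentiableAt ℝ (fun w => if j = k then dgP D w i k else 0) c := hite _ i k
  have hB : DifferentiableAt ℝ (fun w => if i = k then dgP D w j k else 0) c := hite _ j k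
  have hC : DifferentiableAt ℝ (fun w => if i = j then dgP D w k i else 0) c := hite _ k i
  have hAB : DifferentiableAt ℝ (fun w => (if j = k then dgP D w i k else 0)
      + (if i = k then dgP D w j k else 0)) c := hA.add hB
  have hABC : DifferentiableAt ℝ (fun w => (if j = k then dgP D w i k else 0)
      + (if i = k then dgP D w j k else 0) - (if i = j then dgP D w k i else 0)) c := hAB.sub hC
  have hhalf : DifferentiableAt ℝ (fun w => 1 / 2 * (D w k)⁻¹) c := hinv.const_mul (1 / 2)
  unfold dgGam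
  rw [dgPd_mul hhalf hABC, dgPd_const_mul _ hinv, dgPd_inv hDk (hne c hc k), dgPd_sub hAB hC,
    dgPd_add hA hB, dgPd_ite, dgPd_ite, dgPd_ite, e]
  unfold dgDGam dgGam dgQ
  ring

end Claimed.Agent.R324
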