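/-
Row 324, module G, part D (helper427): the Riemann tensor of a diagonal matrix field in terms of its 2-jet.
-/
import Claimed.Agent.R324.Geo.D.DChr

set_option autoImplicit false

namespace Claimed.Agent.R324

open Set Claims.C0510
open scoped ContDiff

variable {d : ℕ}

theorem dg_riemannCoord (D : EuclideanSpace ℝ (Fin d) → Fin d → ℝ)
    {Ω : Set (EuclideanSpace ℝ (Fin d))} (hΩ : IsOpen Ω)
    (hD : ∀ k, ContDiffOn ℝ ∞ (fun w => D w k) Ω) (hne : ∀ x ∈ Ω, ∀ k, D x k ≠ 0)
    {c : EuclideanSpace ℝ (Fin d)} (hc : c ∈ Ω) (l i j k : Fin d) :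
    riemannCoord (fun w => Matrix.diagonal (D w)) c l i j k =
      dgRiem (D c) (dgP D c) (dgQ D c) l i j k := by
  unfold riemannCoord dgRiem
  rw [dg_pdiff_christoffel D hΩ hD hne hc, dg_pdiff_christoffel D hΩ hD hne hc]
  simp only [dg_christoffel D c (hne c hc)]

end Claimed.Agent.R324
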