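/-
Row 324, module G, part D (helper427): the 2-jet of `adDiag` at the centre is warped; Riemann tensor of `adG` at the centre.
-/
import Claimed.Agent.R324.Geo.D.AdF
import Claimed.Agent.R324.Geo.D.AdReg
import Claimed.Agent.R324.Geo.D.Jet2
import Claimed.Agent.R324.Geo.D.Riem

set_option autoImplicit false

namespace Claimed.Agent.R324

open Set Claims.C0510
open scoped ContDiff

variable (q : ℕ) {A B C : ℝ → ℝ} {y : ℝ}

theorem adI_mem (hy : y ∈ Ioo (-1 : ℝ) 1) (posA : 0 < A y)
    (posE : 0 < A y + (1 - y ^ 2) * B y) (posC : 0 < C y) : y ∈ adI A B C :=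
  ⟨hy, posA, posE, posC⟩

theorem adC_mem_adOm (hy : y ∈ adI A B C) : adC q y ∈ adOm q A B C := by
  show adC q y 0 ∈ adI A B C
  rw [adC_zero]
  exact hy

theorem adDiag_fun_eq (A B C : ℝ → ℝ) (k : Fin (q + 3)) :
    (fun w : Ed q => adDiag q A B C w k) =
      fun w => adF q A B C k (w 0) * dgS (adCl q k) w ^ 2 :=
  funext fun w => adDiag_eq q A B C w k

theorem adDiag_contDiffOn (hA : ContDiff ℝ ∞ A) (hB : ContDiff ℝ ∞ B) (hC : ContDiff ℝ ∞ C)
    (k : Fin (q + 3)) : ContDiffOn ℝ ∞ (fun w : Ed q => adDiag q A B C w k) (adOm q A B C) := by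
  rw [adDiag_fun_eq]
  exact dgJet_contDiffOn (adCl q k) _ (adF_contDiffOn q hA hB hC k)

theorem adDiag_pos {x : Ed q} (hx : x ∈ adOm q A B C) (k : Fin (q + 3)) :
    0 < adDiag q A B C x k := by
  rw [adDiag_eq]
  exact mul_pos (adF_pos q hx k) (pow_pos (dgS_pos _ _) 2)

theorem adDiag_centre (A B C : ℝ → ℝ) (y : ℝ) (k : Fin (q + 3)) :
    adDiag q A B C (adC q y) k = adF q A B C k y := by
  rw [adDiag_eq, adC_zero]
  have : dgS (adCl q k) (adC q y) = 1 := dgS_single _ (adCl_zero q k) y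
  rw [this]
  ring

theorem ad_dgP (hA : ContDiff ℝ ∞ A) (hB : ContDiff ℝ ∞ B) (hC : ContDiff ℝ ∞ C)
    (hy : y ∈ adI A B C) (i k : Fin (q + 3)) :
    dgP (adDiag q A B C) (adC q y) i k = dgP0 (fun k => deriv (adF q A B C k) y) i k := by
  have hI : IsOpen (adI A B C) := adI_isOpen hA.continuous hB.continuous hC.continuous
  have hd : DifferentiableAt ℝ (adF q A B C k) (adC q y 0) := by
    rw [adC_zero]
    exact ((adF_contDiffOn q hA hB hC k).contDiffAt (hI.mem_nhds hy)).differentiableAt (by simp)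
  unfold dgP dgP0
  rw [adDiag_fun_eq, dgJet1 _ (adCl_zero q k) _ _ hd]
  have h1 : dgS (adCl q k) (adC q y) = 1 := dgS_single _ (adCl_zero q k) y
  by_cases hi : i = 0
  · simp [hi, h1, adC_zero]
  · have h0 : adC q y i = 0 := by simp [adC, hi]
    simp [hi, h0]

theorem ad_dgQ (hA : ContDiff ℝ ∞ A) (hB : ContDiff ℝ ∞ B) (hC : ContDiff ℝ ∞ C)
    (hy : y ∈ adI A B C) (m i k : Fin (q + 3)) :
    dgQ (adDiag q A B C) (adC q y) m i k =
      dgQ0 (adHV q (fun k => adF q A B C k y) (fun k => deriv (deriv (adF q A B C k)) y)) m i k := by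
  have hI : IsOpen (adI A B C) := adI_isOpen hA.continuous hB.continuous hC.continuous
  unfold dgQ dgP dgQ0 adHV
  rw [adDiag_fun_eq]
  exact dgJet2 _ (adCl_zero q k) _ hI (adF_contDiffOn q hA hB hC k) hy m i

/-- the Riemann tensor of `adG` at the centre. -/
theorem ad_riemannCoord (hA : ContDiff ℝ ∞ A) (hB : ContDiff ℝ ∞ B) (hC : ContDiff ℝ ∞ C)
    (hy : y ∈ adI A B C) (l i j k : Fin (q + 3)) :
    riemannCoord (adG q A B C) (adC q y) l i j k =
      dgRiem (fun k => adF q A B C k y) (dgP0 (fun k => deriv (adF q A B C k) y))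
        (dgQ0 (adHV q (fun k => adF q A B C k y) (fun k => deriv (deriv (adF q A B C k)) y)))
        l i j k := by
  have hΩ : IsOpen (adOm q A B C) := adOm_isOpen q hA.continuous hB.continuous hC.continuous
  have h := dg_riemannCoord (adDiag q A B C) hΩ (adDiag_contDiffOn q hA hB hC)
    (fun x hx k => (adDiag_pos q hx k).ne') (adC_mem_adOm q hy) l i j k
  have e1 : adDiag q A B C (adC q y) = fun k => adF q A B C k y :=
    funext fun k => adDiag_centre q A B C y k
  have e2 : dgP (adDiag q A B C) (adC q y) = dgP0 (fun k => deriv (adF q A B C k) y) :=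
    funext fun i => funext fun k => ad_dgP q hA hB hC hy i k
  have e3 : dgQ (adDiag q A B C) (adC q y) =
      dgQ0 (adHV q (fun k => adF q A B C k y) (fun k => deriv (deriv (adF q A B C k)) y)) :=
    funext fun m => funext fun i => funext fun k => ad_dgQ q hA hB hC hy m i k
  rw [e1, e2, e3] at h
  exact h

end Claimed.Agent.R324
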