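/-
Row 324, module G, part D, leaf AlgG (architect helper427): Christoffel symbols of a warped jet.  PURE ALGEBRA (Kronecker deltas); all identities checked with exact rational arithmetic.
Notation: `λ_k = dgLam D p k = p k / (2 D k)`, `μ_k = dgMu D p k = p k / (2 D 0)`; note `μ_0 = λ_0`.
PROOFS.
 * `dgGam_warped`: `unfold dgGam dgP0 dgLam dgMu`; `by_cases` on `j = k`, `i = k`, `i = j`, `i = 0`, .. (`split_ifs <;> simp_all <;> ring` style; substitute equalities with `subst`); no division by zero issue: `(D k)⁻¹` vs `/ (2 * D k)`: `ring`/`field_simp` (`mul_inv`, `div_eq_mul_inv`) works without `D k ≠ 0`.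
 * `dgDGam_warped`: `unfold dgDGam dgP0 dgQ0 dgLam`; `ite_and`; `split_ifs <;> ring`.
 * `dgGam_trace`: rewrite with `dgGam_warped`; `Finset.sum_add_distrib`, `Finset.sum_sub_distrib`, `Finset.sum_ite_eq`; cases `p' = 0`.
-/
import Claimed.Agent.R324.Geo.D.Defs

set_option autoImplicit false

namespace Claimed.Agent.R324

variable {d : ℕ} [NeZero d] (D p : Fin d → ℝ) (h : Fin d → Fin d → ℝ)

theorem dgMu_zero : dgMu D p 0 = dgLam D p 0 := rfl

theorem dgGam_warped (k i j : Fin d) :
    dgGam D (dgP0 p) k i j = (if j = k ∧ i = 0 then dgLam D p k else 0)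
      + (if i = k ∧ j = 0 then dgLam D p k else 0) - (if i = j ∧ k = 0 then dgMu D p i else 0) := by
  unfold dgGam dgP0 dgLam dgMu
  simp only [ite_and]
  split_ifs <;> (try subst_vars) <;> ring

theorem dgDGam_warped (m k i j : Fin d) :
    dgDGam D (dgP0 p) (dgQ0 h) m k i j =
      -(if m = 0 then 2 * dgLam D p k else 0) * dgGam D (dgP0 p) k i j
      + (1 / 2) * (D k)⁻¹ * ((if j = k ∧ m = i then h i k else 0)
        + (if i = k ∧ m = j then h j k else 0) - (if i = j ∧ m = k then h k i else 0)) := by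
  unfold dgDGam
  generalize dgGam D (dgP0 p) k i j = g
  unfold dgP0 dgQ0 dgLam
  simp only [ite_and]
  split_ifs <;> ring

/-- `Γ^i_{i k} = [k = 0] λ_i`. -/
theorem dgGam_diag (i k : Fin d) :
    dgGam D (dgP0 p) i i k = if k = 0 then dgLam D p i else 0 := by
  rw [dgGam_warped]
  by_cases hk : k = 0
  · subst hk
    by_cases hi : i = 0
    · subst hi
      simp [dgMu_zero]
    · have hi' : ¬ (0 : Fin d) = i := fun h => hi h.symm
      simp [hi, hi']
  · by_cases hi : i = 0
    · subst hi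
      have hk' : ¬ (0 : Fin d) = k := fun h => hk h.symm
      simp [hk, hk']
    · simp [hk, hi]

/-- `∑_i Γ^i_{i k} = [k = 0] Λ`. -/
theorem dgGam_trace (k : Fin d) :
    ∑ i, dgGam D (dgP0 p) i i k = if k = 0 then ∑ i, dgLam D p i else 0 := by
  simp_rw [dgGam_diag]
  split_ifs
  · rfl
  · simp

/-- `Γ^0_{j k} = 2 [j = k = 0] λ_0 - [j = k] μ_j`. -/
theorem dgGam_zero (j k : Fin d) :
    dgGam D (dgP0 p) 0 j k = (if j = 0 ∧ k = 0 then 2 * dgLam D p 0 else 0)
      - (if j = k then dgMu D p j else 0) := by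
  rw [dgGam_warped]
  by_cases hj : j = 0 <;> by_cases hk : k = 0 <;> simp [hj, hk] <;> ring

end Claimed.Agent.R324
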