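/-
Row 324, module G, part D, leaf AlgDG (architect helper427): the two derivative sums in the Ricci tensor of a warped jet.  PURE ALGEBRA; identities checked with exact rational arithmetic.
PROOFS.  Rewrite with `dgDGam_warped`:  `dΓ(m;k,i,j) = -[m=0] 2 λ_k Γ(k,i,j) + (1/(2 D_k)) ([j=k][m=i] h i k + [i=k][m=j] h j k - [i=j][m=k] h k i)`.
 * `dgDG1` (`m = k = i'`, summed over `i'`, lower indices `j k`): first part: only `i' = 0`: `-2 λ_0 Γ(0,j,k)`;
    second part: `∑_i' (1/(2 D_i')) ([k=i'][i'=j] h j i' + [j=i'][i'=k] h k i' - [j=k] h i' j) = [j=k] (h j j / D j - ∑_i' h i' j / (2 D i'))`.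
 * `dgDG2` (`dΓ(j; i', i', k)`): first part `-[j=0] ∑_i' 2 λ_i' Γ(i',i',k) = -[j=0][k=0] 2 ∑ λ^2` (`dgGam_diag`);
    second part `∑_i' (1/(2 D_i')) ([k=i'][j=i'] h i' i' + [j=k] h k i' - [i'=k][j=i'] h i' i') = [j=k] ∑_i' h j i' / (2 D i')`.
 Case split on `j = k` (and `j = 0`) first, then `Finset.sum_add_distrib`, `Finset.sum_ite_eq`, `Finset.mul_sum`; `div_eq_mul_inv`, `mul_inv`, `ring`.  No hypothesis `D ≠ 0` is needed.
-/
import Claimed.Agent.R324.Geo.D.AlgG

set_option autoImplicit false

namespace Claimed.Agent.R324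

variable {d : ℕ} [NeZero d] (D p : Fin d → ℝ) (h : Fin d → Fin d → ℝ)

theorem algDG_key1 (i j k : Fin d) :
    dgDGam D (dgP0 p) (dgQ0 h) i i j k =
      (if i = 0 then -2 * dgLam D p 0 * dgGam D (dgP0 p) 0 j k else 0)
        + (if j = k then (if i = j then h j j / D j else 0) - h i j / (2 * D i) else 0) := by
  rw [dgDGam_warped]
  congr 1
  · by_cases h0 : i = 0
    · subst h0
      simp only [if_true]; ring
    · simp only [h0, if_false]; ring
  · by_cases hjk : j = k
    · subst hjk
      by_cases hi : i = j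
      · subst hi
        simp only [and_self, if_true]
        ring
      · have hi' : ¬ j = i := fun e => hi e.symm
        simp only [hi, hi', and_self, and_false, false_and, if_true, if_false]
        ring
    · have h1 : ¬ (k = i ∧ i = j) := fun e => hjk (e.2.symm.trans e.1.symm)
      have h2 : ¬ (j = i ∧ i = k) := fun e => hjk (e.1.trans e.2)
      simp only [h1, h2, hjk, false_and, if_false]
      ring

theorem algDG_key2 (i j k : Fin d) :
    dgDGam D (dgP0 p) (dgQ0 h) j i i k =
      -(if j = 0 ∧ k = 0 then 2 * dgLam D p i ^ 2 else 0)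
        + (if j = k then h j i / (2 * D i) else 0) := by
  rw [dgDGam_warped, dgGam_diag]
  congr 1
  · by_cases hj : j = 0
    · by_cases hk : k = 0
      · simp only [hj, hk, and_self, if_true]; ring
      · simp only [hk, and_false, if_false]; ring
    · simp only [hj, false_and, if_false]; ring
  · have e1 : (if k = i ∧ j = i then h i i else 0) = (if i = k ∧ j = i then h i i else 0) := by
      by_cases hki : k = i
      · subst hki; rfl
      · have hki' : ¬ i = k := fun e => hki e.symm
        simp only [hki, hki', false_and, if_false]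
    rw [e1]
    by_cases hjk : j = k
    · subst hjk
      simp only [and_self, if_true]
      ring
    · simp only [hjk, and_false, if_false]
      ring

theorem dgDG1 (j k : Fin d) :
    ∑ i, dgDGam D (dgP0 p) (dgQ0 h) i i j k =
      -2 * dgLam D p 0 * dgGam D (dgP0 p) 0 j k
        + (if j = k then h j j / D j - ∑ i, h i j / (2 * D i) else 0) := by
  rw [Finset.sum_congr rfl (fun i _ => algDG_key1 D p h i j k), Finset.sum_add_distrib,
    Finset.sum_ite_eq' Finset.univ (0 : Fin d), if_pos (Finset.mem_univ _)]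
  congr 1
  by_cases hjk : j = k
  · simp only [if_pos hjk]
    rw [Finset.sum_sub_distrib, Finset.sum_ite_eq' Finset.univ j, if_pos (Finset.mem_univ _)]
  · simp only [if_neg hjk, Finset.sum_const_zero]

theorem dgDG2 (j k : Fin d) :
    ∑ i, dgDGam D (dgP0 p) (dgQ0 h) j i i k =
      -(if j = 0 ∧ k = 0 then 2 * ∑ i, dgLam D p i ^ 2 else 0)
        + (if j = k then ∑ i, h j i / (2 * D i) else 0) := by
  rw [Finset.sum_congr rfl (fun i _ => algDG_key2 D p h i j k), Finset.sum_add_distrib,
    Finset.sum_neg_distrib]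
  congr 2
  · by_cases hc : j = 0 ∧ k = 0
    · simp only [if_pos hc]
      rw [Finset.mul_sum]
    · simp only [if_neg hc, Finset.sum_const_zero]
  · by_cases hjk : j = k
    · simp only [if_pos hjk]
    · simp only [if_neg hjk, Finset.sum_const_zero]

end Claimed.Agent.R324
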