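/-
Row 324, module G, part D, leaf AlgGG (architect helper427): the two quadratic sums in the Ricci tensor of a warped jet.  PURE ALGEBRA; identities checked with exact rational arithmetic.
PROOFS.
 * `dgGG1`: `Finset.sum_comm`, `← Finset.sum_mul`, `dgGam_trace`, then `Finset.sum_ite_eq` (only `p' = 0` survives): `simp [ite_mul, Finset.sum_ite_eq]`.
 * `dgGG2`: rewrite both factors by `dgGam_warped`:
    `Γ(i,j,s) = [s=i][j=0] λ_i + [j=i][s=0] λ_i - [j=s][i=0] μ_j`,   `Γ(s,i,k) = [k=s][i=0] λ_s + [i=s][k=0] λ_s - [i=k][s=0] μ_i`.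
   The nine products, summed over `i, s`:
    11: [j=0][k=0] λ_0^2;  12: [j=0][k=0] ∑ λ_i^2;  13: -[j=0][k=0] λ_0 μ_0;  21: [j=0][k=0] λ_0^2;  22: [j=0][k=0] λ_0^2;  23: -[j=k] λ_j μ_j;
    31: -[j=k] μ_j λ_j;  32: -[j=0][k=0] μ_0 λ_0;  33: [j=0][k=0] μ_0^2;   and `μ_0 = λ_0` (`dgMu_zero`).
   Practical route: do the inner sum over `s` first. For fixed `i`, `Γ(i,j,s)` is non-zero only for `s ∈ {i, 0, j}`.  Alternative: case split FIRST on `j = 0`, `k = 0`, `j = k` (5 cases), simplify the `if`s with the case hypotheses, then `Finset.sum_ite_eq`-type simp (`Finset.sum_ite_eq, Finset.sum_ite_eq', ite_and, ite_mul, mul_ite, Finset.sum_add_distrib, Finset.sum_sub_distrib`).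
-/
import Claimed.Agent.R324.Geo.D.AlgG

set_option autoImplicit false

namespace Claimed.Agent.R324

variable {d : ℕ} [NeZero d] (D p : Fin d → ℝ)

theorem dgGG1 (j k : Fin d) :
    ∑ i, ∑ s, dgGam D (dgP0 p) i i s * dgGam D (dgP0 p) s j k =
      (∑ i, dgLam D p i) * dgGam D (dgP0 p) 0 j k := by
  simp only [dgGam_diag, ite_mul, zero_mul, Finset.sum_ite_eq', Finset.mem_univ, if_true,
    Finset.sum_mul]

/-- `Γ^i_{0 s} = [s = i] λ_i`. -/
theorem algGG_left_zero (i s : Fin d) :
    dgGam D (dgP0 p) i 0 s = if s = i then dgLam D p i else 0 := by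
  rw [dgGam_warped]
  by_cases h1 : s = i
  · subst h1
    by_cases h2 : s = 0
    · subst h2; simp [dgMu_zero]
    · have h3 : ¬ (0 : Fin d) = s := fun h => h2 h.symm
      simp [h2, h3]
  · by_cases h2 : i = 0
    · subst h2
      have h3 : ¬ (0 : Fin d) = s := fun h => h1 h.symm
      simp [h1, h3]
    · have h3 : ¬ (0 : Fin d) = i := fun h => h2 h.symm
      simp [h1, h2, h3]

/-- `Γ^s_{i 0} = [i = s] λ_s`. -/
theorem algGG_right_zero (s i : Fin d) :
    dgGam D (dgP0 p) s i 0 = if i = s then dgLam D p s else 0 := by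
  rw [dgGam_warped]
  by_cases h1 : i = s
  · subst h1
    by_cases h2 : i = 0
    · subst h2; simp [dgMu_zero]
    · have h3 : ¬ (0 : Fin d) = i := fun h => h2 h.symm
      simp [h2, h3]
  · by_cases h2 : s = 0
    · subst h2
      simp [h1]
    · have h3 : ¬ (0 : Fin d) = s := fun h => h2 h.symm
      simp [h1, h2, h3]

omit [NeZero d] in
theorem algGG_sum_pair (a b : Fin d) (c : ℝ) (f : Fin d → Fin d → ℝ) :
    ∑ i, ∑ s, (if i = a ∧ s = b then c else 0) * f i s = c * f a b := by
  rw [Finset.sum_eq_single a]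
  · rw [Finset.sum_eq_single b]
    · simp
    · intro s _ hs
      simp [hs]
    · intro h; exact absurd (Finset.mem_univ _) h
  · intro i _ hi
    apply Finset.sum_eq_zero
    intro s _
    simp [hi]
  · intro h; exact absurd (Finset.mem_univ _) h

theorem dgGG2 (j k : Fin d) :
    ∑ i, ∑ s, dgGam D (dgP0 p) i j s * dgGam D (dgP0 p) s i k =
      (if j = 0 ∧ k = 0 then ∑ i, dgLam D p i ^ 2 + 2 * dgLam D p 0 ^ 2 else 0)
        - (if j = k then 2 * dgLam D p j * dgMu D p j else 0) := by
  by_cases hj : j = 0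
  · subst hj
    simp only [algGG_left_zero, ite_mul, zero_mul, Finset.sum_ite_eq', Finset.mem_univ, if_true]
    by_cases hk : k = 0
    · subst hk
      simp only [algGG_right_zero, if_true, and_self, dgMu_zero]
      have : ∀ i, dgLam D p i * dgLam D p i = dgLam D p i ^ 2 := fun i => by ring
      simp only [this]
      ring
    · have hk' : ¬ (0 : Fin d) = k := fun h => hk h.symm
      simp only [dgGam_diag, hk, hk', if_false, and_false, mul_zero, Finset.sum_const_zero,
        sub_zero]
  · have hj' : ¬ (0 : Fin d) = j := fun h => hj h.symm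
    have hL : ∀ i s, dgGam D (dgP0 p) i j s =
        (if i = j ∧ s = 0 then dgLam D p j else 0) - (if i = 0 ∧ s = j then dgMu D p j else 0) := by
      intro i s
      rw [dgGam_warped]
      simp only [hj, and_false, if_false, zero_add]
      congr 1
      · by_cases h1 : i = j
        · subst h1; simp
        · have h2 : ¬ j = i := fun h => h1 h.symm
          simp [h1, h2]
      · by_cases h1 : s = j
        · subst h1; simp
        · have h2 : ¬ j = s := fun h => h1 h.symm
          simp [h1, h2]
    simp only [hL, sub_mul, Finset.sum_sub_distrib, algGG_sum_pair, algGG_left_zero,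
      hj, false_and, if_false, zero_sub]
    by_cases hjk : j = k
    · subst hjk
      simp only [if_true, hj', false_and, and_self, if_false]
      ring
    · have hkj : ¬ k = j := fun h => hjk h.symm
      simp only [hjk, hkj, if_false, hj', false_and, and_false]
      ring

end Claimed.Agent.R324
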