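/-
Row 324, module G, part D (helper427): Ricci tensor of a warped jet.
-/
import Claimed.Agent.R324.Geo.D.AlgGG
import Claimed.Agent.R324.Geo.D.AlgDG

set_option autoImplicit false

namespace Claimed.Agent.R324

variable {d : ℕ} [NeZero d] (D p : Fin d → ℝ) (h : Fin d → Fin d → ℝ)

theorem dgRic_warped (j k : Fin d) :
    ∑ i, dgRiem D (dgP0 p) (dgQ0 h) i i j k = if j = k then dgRicD D p h j else 0 := by
  unfold dgRiem
  simp only [Finset.sum_add_distrib, Finset.sum_sub_distrib]
  rw [dgDG1, dgDG2, dgGG1, dgGG2, dgGam_zero]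
  unfold dgRicD
  by_cases hjk : j = k
  · subst hjk
    by_cases hj : j = 0
    · subst hj
      simp only [and_self, if_true, dgMu_zero]
      ring
    · simp only [hj, and_self, if_true, if_false]
      ring
  · have : ¬ (j = 0 ∧ k = 0) := fun hh => hjk (hh.1.trans hh.2.symm)
    simp only [hjk, this, if_false]
    ring

end Claimed.Agent.R324
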