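/-
Row 324, module G, part D, leaf Log (architect helper427): first and second derivative of `log ∘ F` (one real variable).
PROOFS.  * `dgLog_exp`: `Real.exp_neg`, `Real.exp_log h0`.
 * `dgLog_deriv`: `F` is differentiable at `y` (`(hF.contDiffAt (hI.mem_nhds hy)).differentiableAt (by simp)`); `(hd.hasDerivAt.log (hpos y hy).ne').deriv` (or `deriv.log`).
 * `dgLog_deriv2`: on the open set `I` the function `deriv (fun r => log (F r))` equals `fun r => deriv F r / F r` (by `dgLog_deriv`), so `Filter.EventuallyEq.deriv_eq`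
   (`Filter.eventuallyEq_of_mem (hI.mem_nhds hy) ..`); then `deriv_div` (`deriv_fun_div`): `deriv F` is differentiable at `y` since `ContDiffOn ℝ ∞ (deriv F) I` (`hF.deriv_of_isOpen hI (by simp)`); `field_simp`, `ring`.
-/
import Mathlib

set_option autoImplicit false

namespace Claimed.Agent.R324

open Set
open scoped ContDiff

theorem dgLog_exp {t : ℝ} (h0 : 0 < t) : Real.exp (-Real.log t) = t⁻¹ := by
  rw [Real.exp_neg, Real.exp_log h0]

theorem dgLog_deriv {F : ℝ → ℝ} {I : Set ℝ} (hI : IsOpen I) (hF : ContDiffOn ℝ ∞ F I)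
    (hpos : ∀ r ∈ I, 0 < F r) {y : ℝ} (hy : y ∈ I) :
    deriv (fun r => Real.log (F r)) y = deriv F y / F y := by
  have hd : DifferentiableAt ℝ F y :=
    (hF.contDiffAt (hI.mem_nhds hy)).differentiableAt (by simp)
  exact (hd.hasDerivAt.log (hpos y hy).ne').deriv

theorem dgLog_deriv2 {F : ℝ → ℝ} {I : Set ℝ} (hI : IsOpen I) (hF : ContDiffOn ℝ ∞ F I)
    (hpos : ∀ r ∈ I, 0 < F r) {y : ℝ} (hy : y ∈ I) :
    deriv (deriv (fun r => Real.log (F r))) y = deriv (deriv F) y / F y - (deriv F y / F y) ^ 2 := by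
  have hd : DifferentiableAt ℝ F y :=
    (hF.contDiffAt (hI.mem_nhds hy)).differentiableAt (by simp)
  have hF' : ContDiffOn ℝ ∞ (deriv F) I := hF.deriv_of_isOpen hI (by simp)
  have hd' : DifferentiableAt ℝ (deriv F) y :=
    (hF'.contDiffAt (hI.mem_nhds hy)).differentiableAt (by simp)
  have heq : deriv (fun r => Real.log (F r)) =ᶠ[nhds y] fun r => deriv F r / F r :=
    Filter.eventuallyEq_of_mem (hI.mem_nhds hy) (fun r hr => dgLog_deriv hI hF hpos hr)
  rw [heq.deriv_eq, deriv_fun_div hd' hd (hpos y hy).ne']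
  have h0 : F y ≠ 0 := (hpos y hy).ne'
  field_simp

end Claimed.Agent.R324
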