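/-
Row 324, module G, part D, leaf RfLog (architect helper427): `rfA, rfB, rfC, kPsi` (R324/Reduced.lean) of `a = log F0, β = log F1, γ = log C` in terms of the values and derivatives of `F0 = adF0 A B`, `F1 = adF1 A`, `C`.
PROOFS.  By definition (`rfl`): `laS A B = fun r => Real.log (adF0 A B r)`, `lbS A = fun r => Real.log (adF1 A r)`, `lcS C = fun r => Real.log (C r)`.
 Use `dgLog_exp, dgLog_deriv, dgLog_deriv2` (D/Log.lean) with `I = adI A B C` (`adI_isOpen`), smoothness `adF0_contDiffOn, adF1_contDiffOn, hC.contDiffOn`, positivity `adF0_pos, adF1_pos`, `hr.2.2.2`.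
 Then `unfold rfA adRic0` (etc.), rewrite the five/six derivative values, generalize the nine real numbers (`set`/`generalize`), `field_simp`, `ring`.
 Identity behind: with `λ_i = p_i/(2 E_i)`: `β' = 2 λ_1`, `β'' = h_1/E_1 - 4 λ_1^2`, `e^{-a} = 1/E_0`, ...
-/
import Claimed.Agent.R324.Geo.D.Log
import Claimed.Agent.R324.Geo.D.AdF
import Claimed.Agent.R324.Geo.D.AdReg

set_option autoImplicit false

namespace Claimed.Agent.R324

open Set Claims.C0510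
open scoped ContDiff

variable (q : ℕ) {A B C : ℝ → ℝ} {y : ℝ}

theorem rfLog_laS (A B : ℝ → ℝ) : laS A B = fun r => Real.log (adF0 A B r) := rfl

theorem rfLog_lbS (A : ℝ → ℝ) : lbS A = fun r => Real.log (adF1 A r) := rfl

theorem rfLog_lcS (C : ℝ → ℝ) : lcS C = fun r => Real.log (C r) := rfl

theorem rfLog_a (hA : ContDiff ℝ ∞ A) (hB : ContDiff ℝ ∞ B) (hC : ContDiff ℝ ∞ C)
    (hy : y ∈ adI A B C) :
    Real.exp (-(laS A B y)) = (adF0 A B y)⁻¹ ∧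
      deriv (laS A B) y = deriv (adF0 A B) y / adF0 A B y := by
  have hI : IsOpen (adI A B C) := adI_isOpen hA.continuous hB.continuous hC.continuous
  refine ⟨dgLog_exp (adF0_pos hy), ?_⟩
  rw [rfLog_laS]
  exact dgLog_deriv hI (adF0_contDiffOn hA hB) (fun r hr => adF0_pos hr) hy

theorem rfLog_b (hA : ContDiff ℝ ∞ A) (hB : ContDiff ℝ ∞ B) (hC : ContDiff ℝ ∞ C)
    (hy : y ∈ adI A B C) :
    Real.exp (-(lbS A y)) = (adF1 A y)⁻¹ ∧
      deriv (lbS A) y = deriv (adF1 A) y / adF1 A y ∧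
      deriv (deriv (lbS A)) y
        = deriv (deriv (adF1 A)) y / adF1 A y - (deriv (adF1 A) y / adF1 A y) ^ 2 := by
  have hI : IsOpen (adI A B C) := adI_isOpen hA.continuous hB.continuous hC.continuous
  refine ⟨dgLog_exp (adF1_pos hy), ?_, ?_⟩
  · rw [rfLog_lbS]
    exact dgLog_deriv hI (adF1_contDiffOn hA) (fun r hr => adF1_pos hr) hy
  · rw [rfLog_lbS]
    exact dgLog_deriv2 hI (adF1_contDiffOn hA) (fun r hr => adF1_pos hr) hy

theorem rfLog_c (hA : ContDiff ℝ ∞ A) (hB : ContDiff ℝ ∞ B) (hC : ContDiff ℝ ∞ C)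
    (hy : y ∈ adI A B C) :
    Real.exp (-(lcS C y)) = (C y)⁻¹ ∧
      deriv (lcS C) y = deriv C y / C y ∧
      deriv (deriv (lcS C)) y = deriv (deriv C) y / C y - (deriv C y / C y) ^ 2 := by
  have hI : IsOpen (adI A B C) := adI_isOpen hA.continuous hB.continuous hC.continuous
  refine ⟨dgLog_exp hy.2.2.2, ?_, ?_⟩
  · rw [rfLog_lcS]
    exact dgLog_deriv hI hC.contDiffOn (fun r hr => hr.2.2.2) hy
  · rw [rfLog_lcS]
    exact dgLog_deriv2 hI hC.contDiffOn (fun r hr => hr.2.2.2) hy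

theorem rfA_eq (hA : ContDiff ℝ ∞ A) (hB : ContDiff ℝ ∞ B) (hC : ContDiff ℝ ∞ C)
    (hy : y ∈ adI A B C) :
    -(1 / 2) * (rfA q (laS A B) (lbS A) (lcS C) y * adF0 A B y) =
      adRic0 q (adF0 A B y) (adF1 A y) (C y) (deriv (adF0 A B) y) (deriv (adF1 A) y) (deriv C y)
        (deriv (deriv (adF1 A)) y) (deriv (deriv C) y) := by
  obtain ⟨a0, a1⟩ := rfLog_a hA hB hC hy
  obtain ⟨b0, b1, b2⟩ := rfLog_b hA hB hC hy
  obtain ⟨c0, c1, c2⟩ := rfLog_c hA hB hC hy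
  have h0 : adF0 A B y ≠ 0 := (adF0_pos hy).ne'
  have h1 : adF1 A y ≠ 0 := (adF1_pos hy).ne'
  have h2 : C y ≠ 0 := hy.2.2.2.ne'
  unfold rfA adRic0
  rw [a0, a1, b1, b2, c1, c2]
  generalize adF0 A B y = E0 at h0 ⊢
  generalize adF1 A y = E1 at h1 ⊢
  generalize C y = E2 at h2 ⊢
  field_simp
  ring

theorem rfB_eq (hA : ContDiff ℝ ∞ A) (hB : ContDiff ℝ ∞ B) (hC : ContDiff ℝ ∞ C)
    (hy : y ∈ adI A B C) :
    -(1 / 2) * (rfB q (laS A B) (lbS A) (lcS C) y * adF1 A y) =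
      adRic1 q (adF0 A B y) (adF1 A y) (C y) (deriv (adF0 A B) y) (deriv (adF1 A) y) (deriv C y)
        (deriv (deriv (adF1 A)) y) := by
  obtain ⟨a0, a1⟩ := rfLog_a hA hB hC hy
  obtain ⟨b0, b1, b2⟩ := rfLog_b hA hB hC hy
  obtain ⟨c0, c1, c2⟩ := rfLog_c hA hB hC hy
  have h0 : adF0 A B y ≠ 0 := (adF0_pos hy).ne'
  have h1 : adF1 A y ≠ 0 := (adF1_pos hy).ne'
  have h2 : C y ≠ 0 := hy.2.2.2.ne'
  unfold rfB adRic1
  rw [a0, a1, b0, b1, b2, c1]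
  generalize adF0 A B y = E0 at h0 ⊢
  generalize adF1 A y = E1 at h1 ⊢
  generalize C y = E2 at h2 ⊢
  field_simp
  ring

theorem rfC_eq (hA : ContDiff ℝ ∞ A) (hB : ContDiff ℝ ∞ B) (hC : ContDiff ℝ ∞ C)
    (hy : y ∈ adI A B C) :
    -(1 / 2) * (rfC q (laS A B) (lbS A) (lcS C) y * C y) =
      adRic2 q (adF0 A B y) (adF1 A y) (C y) (deriv (adF0 A B) y) (deriv (adF1 A) y) (deriv C y)
        (deriv (deriv C) y) := by
  obtain ⟨a0, a1⟩ := rfLog_a hA hB hC hy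
  obtain ⟨b0, b1, b2⟩ := rfLog_b hA hB hC hy
  obtain ⟨c0, c1, c2⟩ := rfLog_c hA hB hC hy
  have h0 : adF0 A B y ≠ 0 := (adF0_pos hy).ne'
  have h1 : adF1 A y ≠ 0 := (adF1_pos hy).ne'
  have h2 : C y ≠ 0 := hy.2.2.2.ne'
  unfold rfC adRic2
  rw [a0, a1, b1, c0, c1, c2]
  generalize adF0 A B y = E0 at h0 ⊢
  generalize adF1 A y = E1 at h1 ⊢
  generalize C y = E2 at h2 ⊢
  field_simp
  ring

theorem kPsi_eq (hA : ContDiff ℝ ∞ A) (hB : ContDiff ℝ ∞ B) (hC : ContDiff ℝ ∞ C)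
    (hy : y ∈ adI A B C) :
    kPsi (laS A B) (lcS C) y = (C y)⁻¹ - (adF0 A B y)⁻¹ * (deriv C y / C y) ^ 2 / 4 := by
  obtain ⟨a0, a1⟩ := rfLog_a hA hB hC hy
  obtain ⟨c0, c1, c2⟩ := rfLog_c hA hB hC hy
  unfold kPsi
  rw [a0, c0, c1]

end Claimed.Agent.R324
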