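/-
Row 324, module G, part D, leaf SumCl (architect helper427): sums over the three classes of indices.  PURE ALGEBRA; identities checked with exact rational arithmetic (q = 0..4).
TOOL: `sum_classes q a b c : ∑ j : Fin (q+3), (if j.val = 0 then a else if j.val ≤ q then b else c) = a + q * b + 2 * c` (Geo/Centre.lean).
PROOFS.  In each case show that the summand equals `if i.val = 0 then a else if i.val ≤ q then b else c` for suitable constants
 (`Finset.sum_congr rfl fun i _ => ?_`, `unfold dgLam adV adHV adCl`, `split_ifs`, contradictions by `omega`/`simp_all [Fin.ext_iff]`), then `sum_classes`.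
 For `adSum_h1, adSum_h2` first split on the class of `j` (`by_cases hj0 : j.val = 0`, `by_cases hj1 : j.val ≤ q`); `i = 0 ↔ i.val = 0` is `Fin.ext_iff` (`Fin.val_zero`).
 `-E1 / (2 * E1) = -1/2` needs `hE1` (`field_simp`).
-/
import Claimed.Agent.R324.Geo.D.Defs
import Claimed.Agent.R324.Geo.Centre

set_option autoImplicit false

namespace Claimed.Agent.R324

/-! ### unfolding lemmas (helper226) -/

theorem sumCl_adV (q : ℕ) (a b c : ℝ) (k : Fin (q + 3)) :
    adV q a b c k = if k.val = 0 then a else if k.val ≤ q then b else c := rfl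

theorem sumCl_adV0 (q : ℕ) (a b c : ℝ) {k : Fin (q + 3)} (h : k.val = 0) : adV q a b c k = a :=
  if_pos h

theorem sumCl_adV1 (q : ℕ) (a b c : ℝ) {k : Fin (q + 3)} (h0 : ¬ k.val = 0) (h1 : k.val ≤ q) :
    adV q a b c k = b := by
  rw [sumCl_adV, if_neg h0, if_pos h1]

theorem sumCl_adV2 (q : ℕ) (a b c : ℝ) {k : Fin (q + 3)} (h0 : ¬ k.val = 0) (h1 : ¬ k.val ≤ q) :
    adV q a b c k = c := by
  rw [sumCl_adV, if_neg h0, if_neg h1]

theorem sumCl_dgLam {d : ℕ} (D p : Fin d → ℝ) (k : Fin d) : dgLam D p k = p k / (2 * D k) := rfl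

theorem sumCl_adCl (q : ℕ) (k i : Fin (q + 3)) :
    adCl q k i ↔ (1 ≤ k.val ∧ k.val ≤ q ∧ 1 ≤ i.val ∧ i.val ≤ q) ∨ (q < k.val ∧ q < i.val) :=
  Iff.rfl

theorem sumCl_adHV0 (q : ℕ) (E H : Fin (q + 3) → ℝ) {i : Fin (q + 3)} (h : i.val = 0)
    (k : Fin (q + 3)) : adHV q E H i k = H k :=
  if_pos (Fin.ext h)

theorem sumCl_adHV_pos (q : ℕ) (E H : Fin (q + 3) → ℝ) {i k : Fin (q + 3)} (h : ¬ i.val = 0)
    (hc : adCl q k i) : adHV q E H i k = -E k := by
  have h' : ¬ i = 0 := fun e => h (by rw [e]; rfl)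
  show (if i = 0 then H k else if adCl q k i then -E k else 0) = -E k
  rw [if_neg h', if_pos hc]

theorem sumCl_adHV_neg (q : ℕ) (E H : Fin (q + 3) → ℝ) {i k : Fin (q + 3)} (h : ¬ i.val = 0)
    (hc : ¬ adCl q k i) : adHV q E H i k = 0 := by
  have h' : ¬ i = 0 := fun e => h (by rw [e]; rfl)
  show (if i = 0 then H k else if adCl q k i then -E k else 0) = 0
  rw [if_neg h', if_neg hc]

variable (q : ℕ) (E0 E1 E2 p0 p1 p2 h0 h1 h2 : ℝ)

theorem adSum_lam :
    ∑ i, dgLam (adV q E0 E1 E2) (adV q p0 p1 p2) i =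
      p0 / (2 * E0) + q * (p1 / (2 * E1)) + 2 * (p2 / (2 * E2)) := by
  rw [← sum_classes]
  refine Finset.sum_congr rfl fun i _ => ?_
  rw [sumCl_dgLam, sumCl_adV, sumCl_adV]
  split_ifs <;> rfl

theorem adSum_lam2 :
    ∑ i, dgLam (adV q E0 E1 E2) (adV q p0 p1 p2) i ^ 2 =
      (p0 / (2 * E0)) ^ 2 + q * (p1 / (2 * E1)) ^ 2 + 2 * (p2 / (2 * E2)) ^ 2 := by
  rw [← sum_classes]
  refine Finset.sum_congr rfl fun i _ => ?_
  rw [sumCl_dgLam, sumCl_adV, sumCl_adV]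
  split_ifs <;> rfl

theorem adSum_h1 (hE1 : E1 ≠ 0) (hE2 : E2 ≠ 0) (j : Fin (q + 3)) :
    ∑ i, adHV q (adV q E0 E1 E2) (adV q h0 h1 h2) i j / (2 * adV q E0 E1 E2 i) =
      adV q (h0 / (2 * E0)) (h1 / (2 * E0) - q / 2) (h2 / (2 * E0) - 1) j := by
  have hE1' : -E1 / (2 * E1) = -(1 / 2) := by field_simp
  have hE2' : -E2 / (2 * E2) = -(1 / 2) := by field_simp
  by_cases hj0 : j.val = 0
  · rw [sumCl_adV0 q _ _ _ hj0, show h0 / (2 * E0) = h0 / (2 * E0) + q * 0 + 2 * 0 by ring,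
      ← sum_classes]
    refine Finset.sum_congr rfl fun i _ => ?_
    by_cases hi0 : i.val = 0
    · rw [if_pos hi0, sumCl_adHV0 q _ _ hi0, sumCl_adV0 q _ _ _ hj0, sumCl_adV0 q _ _ _ hi0]
    · rw [sumCl_adHV_neg q _ _ hi0 (by rw [sumCl_adCl]; omega), zero_div, if_neg hi0, ite_self]
  · by_cases hj1 : j.val ≤ q
    · rw [sumCl_adV1 q _ _ _ hj0 hj1,
        show h1 / (2 * E0) - q / 2 = h1 / (2 * E0) + q * (-(1 / 2)) + 2 * 0 by ring, ← sum_classes]
      refine Finset.sum_congr rfl fun i _ => ?_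
      by_cases hi0 : i.val = 0
      · rw [if_pos hi0, sumCl_adHV0 q _ _ hi0, sumCl_adV1 q _ _ _ hj0 hj1, sumCl_adV0 q _ _ _ hi0]
      · by_cases hi1 : i.val ≤ q
        · rw [sumCl_adHV_pos q _ _ hi0 (by rw [sumCl_adCl]; omega), if_neg hi0, if_pos hi1,
            sumCl_adV1 q _ _ _ hj0 hj1, sumCl_adV1 q _ _ _ hi0 hi1, hE1']
        · rw [sumCl_adHV_neg q _ _ hi0 (by rw [sumCl_adCl]; omega), zero_div, if_neg hi0,
            if_neg hi1]
    · rw [sumCl_adV2 q _ _ _ hj0 hj1,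
        show h2 / (2 * E0) - 1 = h2 / (2 * E0) + q * 0 + 2 * (-(1 / 2)) by ring, ← sum_classes]
      refine Finset.sum_congr rfl fun i _ => ?_
      by_cases hi0 : i.val = 0
      · rw [if_pos hi0, sumCl_adHV0 q _ _ hi0, sumCl_adV2 q _ _ _ hj0 hj1, sumCl_adV0 q _ _ _ hi0]
      · by_cases hi1 : i.val ≤ q
        · rw [sumCl_adHV_neg q _ _ hi0 (by rw [sumCl_adCl]; omega), zero_div, if_neg hi0,
            if_pos hi1]
        · rw [sumCl_adHV_pos q _ _ hi0 (by rw [sumCl_adCl]; omega), if_neg hi0, if_neg hi1,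
            sumCl_adV2 q _ _ _ hj0 hj1, sumCl_adV2 q _ _ _ hi0 hi1, hE2']

theorem adSum_h2 (hE1 : E1 ≠ 0) (hE2 : E2 ≠ 0) (j : Fin (q + 3)) :
    ∑ i, adHV q (adV q E0 E1 E2) (adV q h0 h1 h2) j i / (2 * adV q E0 E1 E2 i) =
      adV q (h0 / (2 * E0) + q * (h1 / (2 * E1)) + 2 * (h2 / (2 * E2))) (-(q / 2)) (-1) j := by
  have hE1' : -E1 / (2 * E1) = -(1 / 2) := by field_simp
  have hE2' : -E2 / (2 * E2) = -(1 / 2) := by field_simp
  by_cases hj0 : j.val = 0
  · rw [sumCl_adV0 q _ _ _ hj0, ← sum_classes]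
    refine Finset.sum_congr rfl fun i _ => ?_
    rw [sumCl_adHV0 q _ _ hj0, sumCl_adV, sumCl_adV]
    split_ifs <;> rfl
  · by_cases hj1 : j.val ≤ q
    · rw [sumCl_adV1 q _ _ _ hj0 hj1,
        show -((q : ℝ) / 2) = 0 + q * (-(1 / 2)) + 2 * 0 by ring, ← sum_classes]
      refine Finset.sum_congr rfl fun i _ => ?_
      by_cases hi0 : i.val = 0
      · rw [if_pos hi0, sumCl_adHV_neg q _ _ hj0 (by rw [sumCl_adCl]; omega), zero_div]
      · by_cases hi1 : i.val ≤ q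
        · rw [sumCl_adHV_pos q _ _ hj0 (by rw [sumCl_adCl]; omega), if_neg hi0, if_pos hi1,
            sumCl_adV1 q _ _ _ hi0 hi1, hE1']
        · rw [sumCl_adHV_neg q _ _ hj0 (by rw [sumCl_adCl]; omega), zero_div, if_neg hi0,
            if_neg hi1]
    · rw [sumCl_adV2 q _ _ _ hj0 hj1,
        show (-1 : ℝ) = 0 + q * 0 + 2 * (-(1 / 2)) by ring, ← sum_classes]
      refine Finset.sum_congr rfl fun i _ => ?_
      by_cases hi0 : i.val = 0
      · rw [if_pos hi0, sumCl_adHV_neg q _ _ hj0 (by rw [sumCl_adCl]; omega), zero_div]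
      · by_cases hi1 : i.val ≤ q
        · rw [sumCl_adHV_neg q _ _ hj0 (by rw [sumCl_adCl]; omega), zero_div, if_neg hi0,
            if_pos hi1]
        · rw [sumCl_adHV_pos q _ _ hj0 (by rw [sumCl_adCl]; omega), if_neg hi0, if_neg hi1,
            sumCl_adV2 q _ _ _ hi0 hi1, hE2']

end Claimed.Agent.R324
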