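/-
Row 324, module G, part D, leaf RicV (architect helper427): evaluation of `dgRicD` for the three classes.  PURE ALGEBRA; checked with exact rational arithmetic (q = 0..4).
PROOF.  `unfold dgRicD`; `rw [adSum_lam, adSum_lam2, adSum_h1 .., adSum_h2 ..]`; then split on the class of `j`:
 `by_cases hj0 : j.val = 0` (then `j = 0` by `Fin.ext`, `subst`), `by_cases hj1 : j.val ≤ q`.
 Evaluate `adV q a b c j` (`simp [adV, hj0, hj1]`), `adV q a b c 0 = a` (`simp [adV]`), `dgLam, dgMu` (unfold),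
 `adHV q E H j j = H j` for `j = 0`, `= -E j` otherwise (`adCl q j j` holds for `j ≠ 0`: `unfold adCl; omega`).
 Finally `unfold adRic0` (`adRic1, adRic2`), `field_simp`, `ring`.
-/
import Claimed.Agent.R324.Geo.D.SumCl

set_option autoImplicit false

namespace Claimed.Agent.R324

variable (q : ℕ) (E0 E1 E2 p0 p1 p2 h0 h1 h2 : ℝ)

theorem adRicV (hE0 : E0 ≠ 0) (hE1 : E1 ≠ 0) (hE2 : E2 ≠ 0) (j : Fin (q + 3)) :
    dgRicD (adV q E0 E1 E2) (adV q p0 p1 p2) (adHV q (adV q E0 E1 E2) (adV q h0 h1 h2)) j =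
      adV q (adRic0 q E0 E1 E2 p0 p1 p2 h1 h2) (adRic1 q E0 E1 E2 p0 p1 p2 h1)
        (adRic2 q E0 E1 E2 p0 p1 p2 h2) j := by
  unfold dgRicD
  rw [adSum_lam, adSum_lam2, adSum_h1 q E0 E1 E2 h0 h1 h2 hE1 hE2, adSum_h2 q E0 E1 E2 h0 h1 h2 hE1 hE2]
  have hV0 : ∀ a b c : ℝ, adV q a b c 0 = a := fun a b c => by simp [adV]
  by_cases hj0 : j.val = 0
  · have hj : j = 0 := Fin.ext hj0
    subst hj
    have hH : adHV q (adV q E0 E1 E2) (adV q h0 h1 h2) 0 0 = h0 := by
      simp [adHV, adV]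
    rw [hH]
    simp only [dgLam, dgMu, hV0, if_true]
    unfold adRic0
    field_simp
    ring
  · have hjne : j ≠ 0 := fun h => hj0 (by rw [h]; rfl)
    have hcl : adCl q j j := by
      unfold adCl
      omega
    by_cases hj1 : j.val ≤ q
    · have hV : ∀ a b c : ℝ, adV q a b c j = b := fun a b c => by simp [adV, hj0, hj1]
      have hH : adHV q (adV q E0 E1 E2) (adV q h0 h1 h2) j j = -E1 := by
        simp [adHV, hjne, hcl, hV]
      rw [hH]
      simp only [dgLam, dgMu, hV0, hV, if_neg hjne]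
      unfold adRic1
      field_simp
      ring
    · have hV : ∀ a b c : ℝ, adV q a b c j = c := fun a b c => by simp [adV, hj0, hj1]
      have hH : adHV q (adV q E0 E1 E2) (adV q h0 h1 h2) j j = -E2 := by
        simp [adHV, hjne, hcl, hV]
      rw [hH]
      simp only [dgLam, dgMu, hV0, hV, if_neg hjne]
      unfold adRic2
      field_simp
      ring

end Claimed.Agent.R324
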