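/-
Row 324, module G, part D (helper427): assembly of (C2), the Ricci tensor of `adG` at the centre.
-/
import Claimed.Agent.R324.Geo.D.AdJet
import Claimed.Agent.R324.Geo.D.AlgRic
import Claimed.Agent.R324.Geo.D.RicV
import Claimed.Agent.R324.Geo.D.RfLog

set_option autoImplicit false

namespace Claimed.Agent.R324

open Set Claims.C0510
open scoped ContDiff

theorem dg_adG_ricci (q : ℕ) (A B C : ℝ → ℝ) (hA : ContDiff ℝ ∞ A) (hB : ContDiff ℝ ∞ B)
    (hC : ContDiff ℝ ∞ C) (y : ℝ) (hy : y ∈ Ioo (-1 : ℝ) 1) (posA : 0 < A y)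
    (posE : 0 < A y + (1 - y ^ 2) * B y) (posC : 0 < C y) :
    ricM (adG q A B C) (adC q y) =
      Matrix.diagonal (fun j => -(1 / 2) * (adRf q A B C y j * adDiag q A B C (adC q y) j)) := by
  have hyI : y ∈ adI A B C := adI_mem hy posA posE posC
  have e1 : (fun k => adF q A B C k y) = adV q (adF0 A B y) (adF1 A y) (C y) :=
    funext fun k => adF_eq_adV q A B C y k
  have e2 : (fun k => deriv (adF q A B C k) y) =
      adV q (deriv (adF0 A B) y) (deriv (adF1 A) y) (deriv C y) :=
    funext fun k => deriv_adF_eq_adV q A B C y k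
  have e3 : (fun k => deriv (deriv (adF q A B C k)) y) =
      adV q (deriv (deriv (adF0 A B)) y) (deriv (deriv (adF1 A)) y) (deriv (deriv C) y) :=
    funext fun k => deriv2_adF_eq_adV q A B C y k
  ext j k
  have h1 : ricM (adG q A B C) (adC q y) j k =
      ∑ i, riemannCoord (adG q A B C) (adC q y) i i j k := rfl
  rw [h1]
  simp only [ad_riemannCoord q hA hB hC hyI]
  rw [dgRic_warped, e1, e2, e3,
    adRicV q _ _ _ _ _ _ _ _ _ (adF0_pos hyI).ne' (adF1_pos hyI).ne' posC.ne',
    Matrix.diagonal_apply]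
  by_cases hjk : j = k
  · simp only [hjk, if_true]
    rw [adDiag_centre, adF_eq_adV]
    unfold adRf adV
    split_ifs
    · exact (rfA_eq q hA hB hC hyI).symm
    · exact (rfB_eq q hA hB hC hyI).symm
    · exact (rfC_eq q hA hB hC hyI).symm
  · simp only [hjk, if_false]

end Claimed.Agent.R324
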