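/-
Row 324, module G, part D, leaf Norm (architect helper427): `riemannNormSq` at a point where the matrix is diagonal.
PROOFS.  `unfold riemannNormSq`; `rw [hG]`; `(diagonal Dc)⁻¹ = diagonal (fun k => (Dc k)⁻¹)` (`Matrix.inv_eq_right_inv` + `Matrix.diagonal_mul_diagonal`, `mul_inv_cancel₀ (hne k)`, `Matrix.diagonal_one`; or `Matrix.inv_diagonal`).
 `Matrix.diagonal_apply : diagonal v i j = if i = j then v i else 0`.  The inner four sums collapse: `simp only [Matrix.diagonal_apply, ite_mul, zero_mul, mul_ite, mul_zero, Finset.sum_ite_eq, Finset.mem_univ, if_true]`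
 (if simp does not collapse nested sums in this order, use `Finset.sum_eq_single` for `l' = l`, then `i' = i`, ...).  Then `sq`, `ring` under `Finset.sum_congr`.
 * `dg_normSq_ge`: every term of the four-fold sum is `≥ 0` (`mul_nonneg`, `inv_nonneg`, `sq_nonneg`, `positivity`), `Finset.single_le_sum` four times
   (`le_trans (Finset.single_le_sum (f := fun k => ..) (fun _ _ => ..) (Finset.mem_univ k)) ..`).
-/
import Claimed.Agent.R324.Geo.D.Defs

set_option autoImplicit false

namespace Claimed.Agent.R324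

open Set Claims.C0510
open scoped ContDiff

variable {d : ℕ}

/-- inverse of an invertible diagonal matrix -/
theorem norm_inv_diagonal (Dc : Fin d → ℝ) (hne : ∀ k, Dc k ≠ 0) :
    (Matrix.diagonal Dc)⁻¹ = Matrix.diagonal (fun k => (Dc k)⁻¹) := by
  apply Matrix.inv_eq_right_inv
  rw [Matrix.diagonal_mul_diagonal]
  have : (fun i => Dc i * (Dc i)⁻¹) = fun _ => (1 : ℝ) := by
    funext i
    exact mul_inv_cancel₀ (hne i)
  rw [this, Matrix.diagonal_one]

/-- the inner four sums collapse -/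
theorem norm_collapse (A B : Fin d → ℝ) (R : Fin d → Fin d → Fin d → Fin d → ℝ) (l i j k : Fin d) :
    ∑ l' : Fin d, ∑ i' : Fin d, ∑ j' : Fin d, ∑ k' : Fin d,
      Matrix.diagonal A l l' * Matrix.diagonal B i i' * Matrix.diagonal B j j' *
        Matrix.diagonal B k k' * R l i j k * R l' i' j' k'
      = A l * B i * B j * B k * R l i j k ^ 2 := by
  rw [Finset.sum_eq_single l]
  · rw [Finset.sum_eq_single i]
    · rw [Finset.sum_eq_single j]
      · rw [Finset.sum_eq_single k]
        · simp only [Matrix.diagonal_apply_eq]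
          ring
        · intro b _ hb
          rw [Matrix.diagonal_apply_ne _ (Ne.symm hb)]
          ring
        · intro h; exact absurd (Finset.mem_univ _) h
      · intro b _ hb
        refine Finset.sum_eq_zero fun k' _ => ?_
        rw [Matrix.diagonal_apply_ne _ (Ne.symm hb)]
        ring
      · intro h; exact absurd (Finset.mem_univ _) h
    · intro b _ hb
      refine Finset.sum_eq_zero fun j' _ => Finset.sum_eq_zero fun k' _ => ?_
      rw [Matrix.diagonal_apply_ne _ (Ne.symm hb)]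
      ring
    · intro h; exact absurd (Finset.mem_univ _) h
  · intro b _ hb
    refine Finset.sum_eq_zero fun i' _ => Finset.sum_eq_zero fun j' _ =>
      Finset.sum_eq_zero fun k' _ => ?_
    rw [Matrix.diagonal_apply_ne _ (Ne.symm hb)]
    ring
  · intro h; exact absurd (Finset.mem_univ _) h

theorem dg_normSq (G : EuclideanSpace ℝ (Fin d) → Matrix (Fin d) (Fin d) ℝ)
    (c : EuclideanSpace ℝ (Fin d)) (Dc : Fin d → ℝ) (hG : G c = Matrix.diagonal Dc)
    (hne : ∀ k, Dc k ≠ 0) :
    riemannNormSq G c = ∑ l, ∑ i, ∑ j, ∑ k,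
      Dc l * (Dc i)⁻¹ * (Dc j)⁻¹ * (Dc k)⁻¹ * riemannCoord G c l i j k ^ 2 := by
  unfold riemannNormSq
  rw [hG, norm_inv_diagonal Dc hne]
  refine Finset.sum_congr rfl fun l _ => Finset.sum_congr rfl fun i _ =>
    Finset.sum_congr rfl fun j _ => Finset.sum_congr rfl fun k _ => ?_
  exact norm_collapse Dc (fun k => (Dc k)⁻¹) (riemannCoord G c) l i j k

theorem dg_normSq_ge (G : EuclideanSpace ℝ (Fin d) → Matrix (Fin d) (Fin d) ℝ)
    (c : EuclideanSpace ℝ (Fin d)) (Dc : Fin d → ℝ) (hG : G c = Matrix.diagonal Dc)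
    (hpos : ∀ k, 0 < Dc k) (l i j k : Fin d) :
    Dc l * (Dc i)⁻¹ * (Dc j)⁻¹ * (Dc k)⁻¹ * riemannCoord G c l i j k ^ 2 ≤ riemannNormSq G c := by
  rw [dg_normSq G c Dc hG (fun k => (hpos k).ne')]
  have hterm : ∀ l i j k : Fin d,
      0 ≤ Dc l * (Dc i)⁻¹ * (Dc j)⁻¹ * (Dc k)⁻¹ * riemannCoord G c l i j k ^ 2 := by
    intro l i j k
    have h1 := (hpos l).le
    have h2 := inv_nonneg.mpr (hpos i).le
    have h3 := inv_nonneg.mpr (hpos j).le
    have h4 := inv_nonneg.mpr (hpos k).le
    exact mul_nonneg (mul_nonneg (mul_nonneg (mul_nonneg h1 h2) h3) h4) (sq_nonneg _)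
  refine le_trans ?_ (Finset.single_le_sum (f := fun l => ∑ i, ∑ j, ∑ k,
      Dc l * (Dc i)⁻¹ * (Dc j)⁻¹ * (Dc k)⁻¹ * riemannCoord G c l i j k ^ 2)
    (fun l _ => Finset.sum_nonneg fun i _ => Finset.sum_nonneg fun j _ =>
      Finset.sum_nonneg fun k _ => hterm l i j k) (Finset.mem_univ l))
  refine le_trans ?_ (Finset.single_le_sum (f := fun i => ∑ j, ∑ k,
      Dc l * (Dc i)⁻¹ * (Dc j)⁻¹ * (Dc k)⁻¹ * riemannCoord G c l i j k ^ 2)
    (fun i _ => Finset.sum_nonneg fun j _ =>
      Finset.sum_nonneg fun k _ => hterm l i j k) (Finset.mem_univ i))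
  refine le_trans ?_ (Finset.single_le_sum (f := fun j => ∑ k,
      Dc l * (Dc i)⁻¹ * (Dc j)⁻¹ * (Dc k)⁻¹ * riemannCoord G c l i j k ^ 2)
    (fun j _ => Finset.sum_nonneg fun k _ => hterm l i j k) (Finset.mem_univ j))
  exact Finset.single_le_sum (f := fun k =>
      Dc l * (Dc i)⁻¹ * (Dc j)⁻¹ * (Dc k)⁻¹ * riemannCoord G c l i j k ^ 2)
    (fun k _ => hterm l i j k) (Finset.mem_univ k)

end Claimed.Agent.R324
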