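/-
Row 324, module G, part D, leaf Sec (architect helper427): the component `R^a_{abb}` of a warped jet, `a ≠ b`, both `≠ 0`.  PURE ALGEBRA; checked with exact rational arithmetic.
PROOF.  `unfold dgRiem`; `dgDGam_warped`:
   `dΓ(a; a,b,b) = -h a b / (2 D a)`  (m = a ≠ 0; only the third delta `[b=b][a=a]`),   `dΓ(b; a,a,b) = h b a / (2 D a)`  (only the second delta `[a=a][b=b]`);
 `Γ(a,a,s) = [s = 0] λ_a` (`dgGam_diag`), `Γ(0,b,b) = -μ_b` (`dgGam_zero`, `b ≠ 0`), `Γ(a,b,s) = 0` for all `s` (`dgGam_warped`: `[s=a][b=0]`, `[b=a]`, `[b=s][a=0]` all vanish).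
 So the sum over `s` is `-λ_a μ_b` (`Finset.sum_sub_distrib`, `Finset.sum_ite_eq`, `ite_mul`).
-/
import Claimed.Agent.R324.Geo.D.AlgG

set_option autoImplicit false

namespace Claimed.Agent.R324

variable {d : ℕ} [NeZero d] (D p : Fin d → ℝ) (h : Fin d → Fin d → ℝ)

theorem dgRiem_sec {a b : Fin d} (hab : a ≠ b) (ha : a ≠ 0) (hb : b ≠ 0) :
    dgRiem D (dgP0 p) (dgQ0 h) a a b b =
      -(h a b / (2 * D a)) - h b a / (2 * D a) - dgLam D p a * dgMu D p b := by
  have hba : b ≠ a := fun e => hab e.symm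
  have hdiv : ∀ z : ℝ, z / (2 * D a) = 1 / 2 * (D a)⁻¹ * z := by
    intro z
    rw [div_eq_mul_inv, mul_inv]
    ring
  have h1 : dgDGam D (dgP0 p) (dgQ0 h) a a b b = -(h a b / (2 * D a)) := by
    rw [dgDGam_warped, if_neg ha, if_neg (fun e => hba e.1), if_pos ⟨rfl, rfl⟩, hdiv]
    ring
  have h2 : dgDGam D (dgP0 p) (dgQ0 h) b a a b = h b a / (2 * D a) := by
    rw [dgDGam_warped, if_neg hb, if_neg (fun e => hba e.1), if_pos ⟨rfl, rfl⟩,
      if_neg (fun e => hab e.1), hdiv]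
    ring
  have h3 : ∀ s : Fin d, dgGam D (dgP0 p) a b s = 0 := by
    intro s
    rw [dgGam_warped, if_neg (fun e => hb e.2), if_neg (fun e => hba e.1), if_neg (fun e => ha e.2)]
    ring
  have h4 : dgGam D (dgP0 p) 0 b b = -dgMu D p b := by
    rw [dgGam_zero, if_neg (fun e => hb e.1), if_pos rfl]
    ring
  have h5 : ∑ s : Fin d, (dgGam D (dgP0 p) a a s * dgGam D (dgP0 p) s b b
      - dgGam D (dgP0 p) a b s * dgGam D (dgP0 p) s a b) = -(dgLam D p a * dgMu D p b) := by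
    rw [Finset.sum_eq_single (0 : Fin d)]
    · rw [h3, dgGam_diag, if_pos rfl, h4]
      ring
    · intro s _ hs
      rw [h3, dgGam_diag, if_neg hs]
      ring
    · intro h0
      exact absurd (Finset.mem_univ _) h0
  unfold dgRiem
  rw [h1, h2, h5]
  ring

end Claimed.Agent.R324
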