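/-
Row 324, module G, part D (helper427): assembly of (C3), lower bound for `|Rm|^2` of `adG` at the centre.
-/
import Claimed.Agent.R324.Geo.D.AdJet
import Claimed.Agent.R324.Geo.D.Norm
import Claimed.Agent.R324.Geo.D.Sec
import Claimed.Agent.R324.Geo.D.RfLog

set_option autoImplicit false

namespace Claimed.Agent.R324

open Set Claims.C0510
open scoped ContDiff

theorem dg_adG_riem (q : ℕ) (A B C : ℝ → ℝ) (hA : ContDiff ℝ ∞ A) (hB : ContDiff ℝ ∞ B)
    (hC : ContDiff ℝ ∞ C) (y : ℝ) (hy : y ∈ Ioo (-1 : ℝ) 1) (posA : 0 < A y)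
    (posE : 0 < A y + (1 - y ^ 2) * B y) (posC : 0 < C y) :
    (kPsi (laS A B) (lcS C) y) ^ 2 ≤ riemannNormSq (adG q A B C) (adC q y) := by
  have hyI : y ∈ adI A B C := adI_mem hy posA posE posC
  have hE0 : 0 < adF0 A B y := adF0_pos hyI
  let a : Fin (q + 3) := ⟨q + 1, by omega⟩
  let b : Fin (q + 3) := ⟨q + 2, by omega⟩
  have hab : a ≠ b := by simp [a, b, Fin.ext_iff]
  have ha : a ≠ 0 := by simp [a, Fin.ext_iff]
  have hb : b ≠ 0 := by simp [b, Fin.ext_iff]
  have hG : adG q A B C (adC q y) = Matrix.diagonal (fun k => adF q A B C k y) := by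
    unfold adG
    congr 1
    exact funext fun k => adDiag_centre q A B C y k
  have hge := dg_normSq_ge (adG q A B C) (adC q y) (fun k => adF q A B C k y) hG
    (fun k => adF_pos q hyI k) a a b b
  refine le_trans (le_of_eq ?_) hge
  rw [ad_riemannCoord q hA hB hC hyI, dgRiem_sec _ _ _ hab ha hb, kPsi_eq hA hB hC hyI]
  have fa : adF q A B C a = C := by
    unfold adF
    rw [if_neg (by simp [a]), if_neg (by simp [a])]
  have fb : adF q A B C b = C := by
    unfold adF
    rw [if_neg (by simp [b]), if_neg (by simp [b])]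
  have f0 : adF q A B C 0 = adF0 A B := by
    unfold adF
    rw [if_pos (by simp)]
  have cab : adCl q b a := Or.inr ⟨by simp [b], by simp [a]⟩
  have cba : adCl q a b := Or.inr ⟨by simp [a], by simp [b]⟩
  have hh1 : adHV q (fun k => adF q A B C k y) (fun k => deriv (deriv (adF q A B C k)) y) a b
      = -C y := by
    unfold adHV
    rw [if_neg ha, if_pos cab]
    show -(adF q A B C b y) = -C y
    rw [fb]
  have hh2 : adHV q (fun k => adF q A B C k y) (fun k => deriv (deriv (adF q A B C k)) y) b a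
      = -C y := by
    unfold adHV
    rw [if_neg hb, if_pos cba]
    show -(adF q A B C a y) = -C y
    rw [fa]
  rw [hh1, hh2]
  unfold dgLam dgMu
  simp only [fa, fb, f0]
  have hC0 : C y ≠ 0 := posC.ne'
  have hE0' : adF0 A B y ≠ 0 := hE0.ne'
  field_simp
  ring

end Claimed.Agent.R324
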